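import Vale.Agent.P031.Rankin

/-!
# Totient values: the weighted sum over a matrix of smooth cells
-/

open Finset Real
open scoped Classical

noncomputable section

namespace Vale.Agent.P031

/-- Scale cap of a matrix cell; `none` is the tail row or column. -/
def cellCap {R R' : ℕ} (Y : ℝ) (a : Fin R → ℕ) (b : Fin R' → ℕ) :
    Option (Fin R) × Option (Fin R') → ℝ
  | (some i, some j) => max Y (min (a i : ℝ) (b j : ℝ))
  | _ => Y

/-- The reciprocal multiplicity weight. -/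
def colWt {R' : ℕ} (Y : ℝ) (b : Fin R' → ℕ) (q : ℕ) : ℝ :=
  if sc q ≤ Y then 1
  else 1 / max 1 ((Finset.univ.filter fun j : Fin R' => sc q ≤ (b j : ℝ)).card : ℝ)

lemma colWt_bounds {R' : ℕ} (Y : ℝ) (b : Fin R' → ℕ) (q : ℕ) :
    0 ≤ colWt Y b q ∧ colWt Y b q ≤ 1 := by
  unfold colWt
  split_ifs
  · exact ⟨zero_le_one, le_rfl⟩
  · exact ⟨by positivity,
      (div_le_one (lt_of_lt_of_le one_pos (le_max_left _ _))).2 (le_max_left _ _)⟩

theorem cells_euler : ∃ C : ℝ, 0 < C ∧ ∀ (R R' : ℕ) (Y : ℝ), 1 ≤ Y →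
    ∀ (a : Fin R → ℕ) (b : Fin R' → ℕ)
      (S : Finset (Option (Fin R) × Option (Fin R') → ℕ)),
    (∀ d ∈ S, ∀ c, Smooth (cellCap Y a b c) (d c)) →
    ∑ d ∈ S, ∏ c, wt (colWt Y b) (d c) / (d c : ℝ)
      ≤ exp ((∑ i, (a i : ℝ)) + C * ((R : ℝ) + R' + 2) ^ 2 * (Y + 1)) := by
  obtain ⟨C1, hC1, h1⟩ := recip_primesTo
  obtain ⟨C2, hC2, h2⟩ := recip_window
  have hs2 : Summable (fun n : ℕ => (1 : ℝ) / (n : ℝ) ^ 2) :=
    Real.summable_one_div_nat_pow.mpr one_lt_two
  set C3 := ∑' n : ℕ, (1 : ℝ) / (n : ℝ) ^ 2 with hC3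
  have hC30 : 0 ≤ C3 := tsum_nonneg fun n => by positivity
  refine ⟨C1 + C2 + 4 * C3 + 1, by positivity, fun R R' Y hY a b S hS => ?_⟩
  set g := colWt Y b with hg
  have hgb : ∀ u : ℝ, ∀ q ∈ primesTo u, 0 ≤ g q ∧ g q ≤ 3 / 4 * (q : ℝ) := fun u q hq =>
    ⟨(colWt_bounds Y b q).1, (colWt_bounds Y b q).2.trans (by linarith [one_lt_of_mem_primesTo hq])⟩
  set T : Option (Fin R) × Option (Fin R') → Finset ℕ := fun c => S.image fun d => d c with hT
  have hTs : ∀ c, ∀ m ∈ T c, Smooth (cellCap Y a b c) m := fun c m hm => by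
    obtain ⟨d, hd, rfl⟩ := Finset.mem_image.1 hm
    exact hS d hd c
  have hnn : ∀ (c : Option (Fin R) × Option (Fin R')), ∀ m : ℕ, 0 ≤ wt g m / (m : ℝ) := fun c m =>
    div_nonneg (wt_nonneg fun q _ => (colWt_bounds Y b q).1) (Nat.cast_nonneg m)
  refine (Finset.sum_le_sum_of_subset_of_nonneg (t := Fintype.piFinset T) (fun d hd =>
    Fintype.mem_piFinset.2 fun c => Finset.mem_image.2 ⟨d, hd, rfl⟩)
    fun d _ _ => Finset.prod_nonneg fun c _ => hnn c _).trans ?_
  rw [← Finset.prod_univ_sum T (fun _ (m : ℕ) => wt g m / (m : ℝ))]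
  refine (Finset.prod_le_prod (fun c _ => Finset.sum_nonneg fun m _ => hnn c m) fun c _ =>
    smooth_weight_sum _ g (hgb _) (T c) (hTs c)).trans ?_
  rw [← exp_sum, exp_le_exp]
  set W : Option (Fin R) × Option (Fin R') → ℝ := fun c => match c with
    | (some i, some j) => ∑ q ∈ (primesTo (a i : ℝ)).filter (fun q => Y < sc q ∧ sc q ≤ (a i : ℝ)),
        if sc q ≤ (b j : ℝ) then g q / q else 0
    | _ => 0 with hW
  have hcell : ∀ c, ∑ q ∈ primesTo (cellCap Y a b c), (g q / q + 4 * (g q / q) ^ 2)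
      ≤ (Y + C1 + 4 * C3) + W c := by
    intro c
    rw [Finset.sum_add_distrib, ← Finset.sum_filter_add_sum_filter_not
      (primesTo (cellCap Y a b c)) (fun q => sc q ≤ Y) (fun q => g q / (q : ℝ))]
    have e1 : ∑ q ∈ (primesTo (cellCap Y a b c)).filter (fun q => sc q ≤ Y), g q / q ≤ Y + C1 := by
      refine le_trans (le_trans (Finset.sum_le_sum fun q _ => div_le_div_of_nonneg_right
        (colWt_bounds Y b q).2 (Nat.cast_nonneg q)) (Finset.sum_le_sum_of_subset_of_nonneg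
          (t := primesTo Y) (fun q hq => ?_) fun q _ _ => by positivity))
        ((h1 Y).trans (by rw [max_eq_left (by linarith)]))
      obtain ⟨hq1, hq2⟩ := Finset.mem_filter.1 hq
      exact mem_primesTo.2 ⟨(mem_primesTo.1 hq1).1, hq2⟩
    have e2 : ∑ q ∈ primesTo (cellCap Y a b c), 4 * (g q / q) ^ 2 ≤ 4 * C3 := by
      rw [← Finset.mul_sum]
      refine mul_le_mul_of_nonneg_left ((Finset.sum_le_sum fun q _ => ?_).trans
        (hs2.sum_le_tsum _ fun q _ => by positivity)) (by norm_num)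
      rw [div_pow]
      exact div_le_div_of_nonneg_right (pow_le_one₀ (colWt_bounds Y b q).1 (colWt_bounds Y b q).2)
        (sq_nonneg _)
    have e3 : ∑ q ∈ (primesTo (cellCap Y a b c)).filter (fun q => ¬ sc q ≤ Y), g q / q ≤ W c := by
      have hempty : cellCap Y a b c = Y →
          ∑ q ∈ (primesTo (cellCap Y a b c)).filter (fun q => ¬ sc q ≤ Y), g q / q ≤ 0 := fun h => by
        rw [h, Finset.filter_false_of_mem fun q hq => not_not.2 (mem_primesTo.1 hq).2,
          Finset.sum_empty]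
      obtain ⟨_ | i, _ | j⟩ := c
      · exact hempty rfl
      · exact hempty rfl
      · exact hempty rfl
      show _ ≤ ∑ q ∈ _, _
      rw [← Finset.sum_filter]
      refine Finset.sum_le_sum_of_subset_of_nonneg (fun q hq => ?_) fun q _ _ =>
        div_nonneg (colWt_bounds Y b q).1 (Nat.cast_nonneg q)
      obtain ⟨hq1, hq2⟩ := Finset.mem_filter.1 hq
      obtain ⟨hp, hle⟩ := mem_primesTo.1 hq1
      have hmin : sc q ≤ min (a i : ℝ) (b j : ℝ) := by
        rcases le_max_iff.1 (show sc q ≤ max Y (min (a i : ℝ) (b j : ℝ)) from hle) with h | h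
        · exact absurd h hq2
        · exact h
      simp only [Finset.mem_filter]
      exact ⟨⟨mem_primesTo.2 ⟨hp, hmin.trans (min_le_left _ _)⟩, not_le.1 hq2,
        hmin.trans (min_le_left _ _)⟩, hmin.trans (min_le_right _ _)⟩
    linarith
  have hWsum : ∑ c, W c ≤ (∑ i, (a i : ℝ)) + (R : ℝ) * C2 := by
    rw [Fintype.sum_prod_type, Fintype.sum_option]
    have z1 : ∑ y : Option (Fin R'), W (none, y) = 0 := Finset.sum_eq_zero fun y _ => rfl
    rw [z1, zero_add]
    have hrow : ∀ i : Fin R, ∑ y : Option (Fin R'), W (some i, y) ≤ (a i : ℝ) + C2 := by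
      intro i
      rw [Fintype.sum_option, show W (some i, none) = 0 from rfl, zero_add]
      show ∑ j, ∑ q ∈ _, _ ≤ _
      rw [Finset.sum_comm]
      refine le_trans (Finset.sum_le_sum fun q hq => ?_)
        (h2 (a i : ℝ) Y (a i : ℝ) (by linarith) (Nat.cast_nonneg _))
      obtain ⟨hq', hqY, -⟩ := Finset.mem_filter.1 hq
      rw [← Finset.sum_filter, Finset.sum_const, nsmul_eq_mul, hg, colWt, if_neg (not_le.2 hqY),
        ← mul_div_assoc, mul_one_div]
      exact div_le_div_of_nonneg_right ((div_le_one (lt_of_lt_of_le one_pos (le_max_left _ _))).2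
        (le_max_right _ _)) (Nat.cast_nonneg q)
    refine (Finset.sum_le_sum fun i _ => hrow i).trans ?_
    rw [Finset.sum_add_distrib, Finset.sum_const, Finset.card_univ, Fintype.card_fin, nsmul_eq_mul]
  refine (Finset.sum_le_sum fun c _ => hcell c).trans ?_
  rw [Finset.sum_add_distrib, Finset.sum_const, Finset.card_univ, Fintype.card_prod,
    Fintype.card_option, Fintype.card_option, Fintype.card_fin, Fintype.card_fin, nsmul_eq_mul]
  push_cast
  set N : ℝ := ((R : ℝ) + R' + 2) ^ 2 with hN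
  have hR : (0 : ℝ) ≤ R := Nat.cast_nonneg R
  have hR' : (0 : ℝ) ≤ R' := Nat.cast_nonneg R'
  have n1 : ((R : ℝ) + 1) * ((R' : ℝ) + 1) ≤ N := by rw [hN]; nlinarith
  have n2 : (R : ℝ) ≤ N := by rw [hN]; nlinarith
  have p1 := mul_le_mul_of_nonneg_right n1 (show 0 ≤ Y + C1 + 4 * C3 by linarith)
  have p2 := mul_le_mul_of_nonneg_right n2 hC2.le
  have hN0 : 0 ≤ N := by rw [hN]; positivity
  have p3 : Y + C1 + 4 * C3 + C2 ≤ (C1 + C2 + 4 * C3 + 1) * (Y + 1) := by nlinarith
  have p4 := mul_le_mul_of_nonneg_left p3 hN0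
  nlinarith

end Vale.Agent.P031
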