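import Vale.Agent.P031.Collide.CellWeights
import Vale.Agent.P031.BadMass

/-!
# Totient values: matrices of factorisations and the weight of a value
-/

open Finset Real
open scoped Classical

noncomputable section

namespace Vale.Agent.P031

lemma exists_split {I : Type} [Fintype I] (a : I → ℕ) (s : Finset I) : ∀ b : ℕ, b ∣ ∏ i ∈ s, a i →
    ∃ x : I → ℕ, (∀ i, x i ∣ a i) ∧ (∀ i ∉ s, x i = 1) ∧ ∏ i ∈ s, x i = b := by
  induction s using Finset.induction_on with
  | empty =>
    intro b hb
    refine ⟨fun _ => 1, fun i => one_dvd _, fun i _ => rfl, ?_⟩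
    simp [Nat.dvd_one.1 (by simpa using hb)]
  | @insert k t hk ih =>
    intro b hb
    rw [Finset.prod_insert hk] at hb
    obtain ⟨b1, b2, h1, h2, rfl⟩ := exists_dvd_and_dvd_of_dvd_mul hb
    obtain ⟨x, hx1, hx2, hx3⟩ := ih b2 h2
    refine ⟨Function.update x k b1, fun i => ?_, fun i hi => ?_, ?_⟩
    · rcases eq_or_ne i k with rfl | hne
      · simpa using h1
      · simpa [Function.update_of_ne hne] using hx1 i
    · rw [Finset.mem_insert, not_or] at hi
      rw [Function.update_of_ne hi.1]; exact hx2 i hi.2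
    · rw [Finset.prod_insert hk, Function.update_self, Finset.prod_update_of_notMem hk, hx3]

lemma card_filter_antitone {n : ℕ} (b : Fin n → ℕ) (hb : Antitone b) (c : ℝ) (j : Fin n) :
    c ≤ (b j : ℝ) ↔ (j : ℕ) < (Finset.univ.filter fun i : Fin n => c ≤ (b i : ℝ)).card := by
  constructor
  · intro h
    have hsub : Finset.Iic j ⊆ Finset.univ.filter fun i : Fin n => c ≤ (b i : ℝ) := fun i hi =>
      Finset.mem_filter.2 ⟨Finset.mem_univ _, h.trans (by exact_mod_cast hb (Finset.mem_Iic.1 hi))⟩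
    have := Finset.card_le_card hsub
    rw [Fin.card_Iic] at this
    omega
  · intro h
    by_contra hc
    have hsub : (Finset.univ.filter fun i : Fin n => c ≤ (b i : ℝ)) ⊆ Finset.Iio j := fun i hi => by
      refine Finset.mem_Iio.2 (not_le.1 fun hij => hc ?_)
      exact (Finset.mem_filter.1 hi).2.trans (by exact_mod_cast hb hij)
    have := Finset.card_le_card hsub
    rw [Fin.card_Iio] at this
    omega

lemma colWt_eq {R' : ℕ} (Y : ℝ) (b : Fin (R' + 1) → ℕ) (hb : Antitone b) (q : ℕ) :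
    colWt Y b q = exp (-∑ t : Fin R', (log ((t : ℕ) + 2 : ℝ) - log ((t : ℕ) + 1 : ℝ))
        * (if Y < sc q ∧ sc q ≤ (b t.succ : ℝ) then 1 else 0)) := by
  by_cases hY : sc q ≤ Y
  · simp [colWt, hY, not_lt.2 hY]
  set N := (Finset.univ.filter fun j : Fin (R' + 1) => sc q ≤ (b j : ℝ)).card with hN
  have hNle : N ≤ R' + 1 := le_trans (Finset.card_filter_le _ _) (by simp)
  have hterm : ∀ t : Fin R', (Y < sc q ∧ sc q ≤ (b t.succ : ℝ)) ↔ (t : ℕ) + 1 < N := fun t => by
    rw [card_filter_antitone b hb (sc q) t.succ, Fin.val_succ, ← hN]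
    exact and_iff_right (not_le.1 hY)
  simp only [hterm, mul_ite, mul_one, mul_zero]
  rw [Fin.sum_univ_eq_sum_range (fun t : ℕ =>
      if t + 1 < N then log ((t : ℝ) + 2) - log ((t : ℝ) + 1) else 0) R', ← Finset.sum_filter]
  have hf : (Finset.range R').filter (fun t => t + 1 < N) = Finset.range (N - 1) := by
    ext t; simp only [Finset.mem_filter, Finset.mem_range]; omega
  have htel : ∀ M : ℕ,
      ∑ t ∈ Finset.range M, (log ((t : ℝ) + 2) - log ((t : ℝ) + 1)) = log ((M : ℝ) + 1) := by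
    intro M
    induction M with
    | zero => simp
    | succ M ih => rw [Finset.sum_range_succ, ih]; push_cast; ring_nf
  rw [hf, htel, exp_neg, exp_log (by positivity), colWt, if_neg hY, one_div, ← hN]
  congr 1
  rcases Nat.eq_zero_or_pos N with h | h
  · simp [h]
  · rw [max_eq_right (by exact_mod_cast h), Nat.cast_sub h]; push_cast; ring

theorem exists_matrix {I J : Type} [Fintype I] [Fintype J] (a : I → ℕ) (b : J → ℕ)
    (ha : ∀ i, a i ≠ 0) (h : ∏ i, a i = ∏ j, b j) :
    ∃ d : I → J → ℕ, (∀ i, ∏ j, d i j = a i) ∧ (∀ j, ∏ i, d i j = b j) := by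
  suffices H : ∀ (s : Finset J) (a : I → ℕ), (∀ i, a i ≠ 0) → ∏ i, a i = ∏ j ∈ s, b j →
      ∃ d : I → J → ℕ, (∀ i, ∏ j ∈ s, d i j = a i) ∧ ∀ j ∈ s, ∏ i, d i j = b j by
    obtain ⟨d, h1, h2⟩ := H Finset.univ a ha h
    exact ⟨d, h1, fun j => h2 j (Finset.mem_univ j)⟩
  intro s
  induction s using Finset.induction_on with
  | empty =>
    intro a _ h
    refine ⟨fun _ _ => 1, fun i => ?_, fun j hj => absurd hj (Finset.notMem_empty j)⟩
    rw [Finset.prod_empty] at h ⊢
    exact (Finset.prod_eq_one_iff.1 h i (Finset.mem_univ i)).symm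
  | @insert k t hk ih =>
    intro a ha h
    rw [Finset.prod_insert hk] at h
    obtain ⟨x, hx1, -, hx3⟩ := exists_split a Finset.univ (b k) ⟨_, h⟩
    have hxa : ∀ i, x i * (a i / x i) = a i := fun i => Nat.mul_div_cancel' (hx1 i)
    have hne : ∀ i, a i / x i ≠ 0 := fun i h0 => ha i (by rw [← hxa i, h0, mul_zero])
    have hbk : b k ≠ 0 := fun h0 => by
      rw [h0, zero_mul] at h
      exact Finset.prod_ne_zero_iff.2 (fun i _ => ha i) h
    have hrest : ∏ i, a i / x i = ∏ j ∈ t, b j := by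
      refine mul_left_cancel₀ hbk ?_
      rw [← h]
      conv_lhs => rw [← hx3, ← Finset.prod_mul_distrib]
      exact Finset.prod_congr rfl fun i _ => hxa i
    obtain ⟨d, hd1, hd2⟩ := ih _ hne hrest
    refine ⟨fun i => Function.update (d i) k (x i), fun i => ?_, fun j hj => ?_⟩
    · dsimp only
      rw [Finset.prod_insert hk, Function.update_self, Finset.prod_update_of_notMem hk, hd1, hxa]
    · rcases Finset.mem_insert.1 hj with rfl | hjt
      · simpa using hx3
      · have hne' : j ≠ k := fun e => hk (e ▸ hjt)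
        simp only [Function.update_of_ne hne']
        exact hd2 j hjt

theorem nbt_val_le (u Y v : ℝ) (r : Rep) (hu : 0 ≤ u) (hY : 0 ≤ Y) (hv : 0 ≤ v)
    (hr : RepOK u Y r) :
    (Nbt r.val Y v : ℝ)
      ≤ (r.ps.map fun p => min v (sc p)).sum + (r.ps.length : ℝ) * Dv (u + 1) := by
  obtain ⟨-, -, -, hps, htl⟩ := hr
  have htl0 : Nbt r.tl Y v = 0 := by
    rw [Nbt, List.length_eq_zero_iff, List.filter_eq_nil_iff]
    intro q hq
    have := htl.2 q (Nat.prime_of_mem_primeFactorsList hq) (Nat.dvd_of_mem_primeFactorsList hq)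
    simp [not_lt.2 this]
  have key : ∀ l : List ℕ, (∀ p ∈ l, p.Prime ∧ Normal p ∧ Y < sc p ∧ sc p ≤ u + 1) →
      (Nbt (l.map fun p => p - 1).prod Y v : ℝ)
        ≤ (l.map fun p => min v (sc p)).sum + (l.length : ℝ) * Dv (u + 1) := by
    intro l
    induction l with
    | nil => intro _; simp [Nbt_one]
    | cons p t ih =>
      intro h
      obtain ⟨hp, hN, hY', hu'⟩ := h p List.mem_cons_self
      have ht := ih fun q hq => h q (List.mem_cons_of_mem _ hq)
      have hne : p - 1 ≠ 0 := by have := hp.two_le; omega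
      have hne' := pred_prod_ne_zero (l := t) fun q hq => (h q (List.mem_cons_of_mem _ hq)).1
      have h0 : 0 ≤ sc p := by linarith
      have hD : Dv (sc p) ≤ Dv (u + 1) := rpow_le_rpow h0 hu' (by norm_num)
      have h1 : (Nle (p - 1) v : ℝ) ≤ min v (sc p) + Dv (sc p) := by
        rcases le_or_gt v (sc p) with hv' | hv'
        · rw [min_eq_left hv']; linarith [(abs_le.1 (hN.1 v hv hv')).2]
        · rw [min_eq_right hv'.le, Nle_pred_const hp hv'.le]
          linarith [(abs_le.1 (hN.1 (sc p) h0 le_rfl)).2]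
      have h2 : (Nbt (p - 1) Y v : ℝ) ≤ (Nle (p - 1) v : ℝ) := by
        simp only [Nbt, Nle, ← List.countP_eq_length_filter]
        exact_mod_cast List.countP_mono_left fun q _ hq => by
          simp only [decide_eq_true_eq] at hq ⊢; exact hq.2
      simp only [List.map_cons, List.prod_cons, List.sum_cons, List.length_cons,
        Nbt_mul hne hne', Nat.cast_add, Nat.cast_one]
      linarith
  rw [Rep.val, Nbt_mul (pred_prod_ne_zero fun p hp => (hps p hp).1) htl.1, htl0, Nat.add_zero]
  exact key r.ps hps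

theorem colWt_lower {R' : ℕ} (Y : ℝ) (b : Fin (R' + 1) → ℕ) (hb : Antitone b) (m : ℕ)
    (hm : m ≠ 0) :
    exp (-∑ t : Fin R', (log ((t : ℕ) + 2 : ℝ) - log ((t : ℕ) + 1 : ℝ))
        * (Nbt m Y (b t.succ : ℝ) : ℝ))
      ≤ wt (colWt Y b) m := by
  apply le_of_eq
  simp only [wt, Nbt]
  induction m.primeFactorsList with
  | nil => simp
  | cons q l ih =>
    rw [List.map_cons, List.prod_cons, ← ih, colWt_eq Y b hb q, ← exp_add, ← neg_add,
      ← Finset.sum_add_distrib]
    refine congrArg exp (congrArg Neg.neg (Finset.sum_congr rfl fun t _ => ?_))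
    rw [List.filter_cons, ← mul_add]
    congr 1
    by_cases hq : Y < sc q ∧ sc q ≤ (b t.succ : ℝ)
    · simp [hq]; ring
    · simp [hq]

end Vale.Agent.P031
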