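import Vale.Agent.P031.Basic

/-!
# Totient values: the discrete Gibbs inequality between two level profiles
-/

open Finset Real
open scoped Classical

noncomputable section

namespace Vale.Agent.P031

/-- A natural number as a sum of indicators. -/
lemma cast_eq_sum_ind {x M : ℕ} (h : x ≤ M) :
    (x : ℝ) = ∑ v ∈ Finset.range M, if v < x then (1 : ℝ) else 0 := by
  rw [← Finset.sum_filter, Finset.sum_const, nsmul_eq_mul, mul_one]
  have : (Finset.range M).filter (fun v => v < x) = Finset.range x := by ext v; simp; omega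
  rw [this, Finset.card_range]

lemma lt_card_above_iff {n : ℕ} {f : Fin n → ℕ} (hf : Antitone f) (v : ℕ) (i : Fin n) :
    (i : ℕ) < (Finset.univ.filter fun j => v < f j).card ↔ v < f i := by
  constructor
  · intro h
    by_contra hv
    have hsub : (Finset.univ.filter fun j => v < f j) ⊆ Finset.Iio i := fun j hj => by
      rw [Finset.mem_Iio]
      by_contra hji
      have := hf (not_lt.1 hji)
      simp only [Finset.mem_filter] at hj
      omega
    have := Finset.card_le_card hsub
    rw [Fin.card_Iio] at this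
    omega
  · intro h
    have hsub : Finset.Iic i ⊆ Finset.univ.filter fun j => v < f j := fun j hj => by
      simp only [Finset.mem_filter, Finset.mem_univ, true_and]
      exact lt_of_lt_of_le h (hf (Finset.mem_Iic.1 hj))
    have := Finset.card_le_card hsub
    rw [Fin.card_Iic] at this
    omega

/-- Sum over the levels below a threshold, written as a range sum. -/
lemma sum_above {n : ℕ} {f : Fin (n + 1) → ℕ} (hf : Antitone f) (v : ℕ) (G : ℕ → ℝ) :
    ∑ t : Fin n, (if v < f t.succ then G t else 0)
      = ∑ t ∈ Finset.range ((Finset.univ.filter fun j => v < f j).card - 1), G t := by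
  set c := (Finset.univ.filter fun j => v < f j).card with hc
  have hcn : c ≤ n + 1 := by
    simpa [hc] using Finset.card_filter_le (Finset.univ : Finset (Fin (n + 1))) (fun j => v < f j)
  have hiff : ∀ t : Fin n, v < f t.succ ↔ (t : ℕ) < c - 1 := fun t => by
    rw [← lt_card_above_iff hf v t.succ, ← hc, Fin.val_succ]; omega
  calc ∑ t : Fin n, (if v < f t.succ then G t else 0)
      = ∑ t : Fin n, (if (t : ℕ) < c - 1 then G t else 0) :=
        Finset.sum_congr rfl fun t _ => if_congr (hiff t) rfl rfl
    _ = ∑ t ∈ Finset.range n, (if t < c - 1 then G t else 0) :=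
        (Finset.sum_range (fun t => if t < c - 1 then G t else 0)).symm
    _ = ∑ t ∈ Finset.range (c - 1), G t := by
        rw [← Finset.sum_filter]
        refine Finset.sum_congr ?_ fun _ _ => rfl
        ext t; simp; omega

lemma log_diff_telescope (m : ℕ) :
    ∑ t ∈ Finset.range m, (log ((t : ℝ) + 2) - log ((t : ℝ) + 1)) = log ((m : ℝ) + 1) := by
  induction m with
  | zero => simp
  | succ m ih => rw [Finset.sum_range_succ, ih]; push_cast; ring_nf

lemma alpha_telescope (m : ℕ) :
    ∑ t ∈ Finset.range m, alpha (t + 1) = ((m : ℝ) + 1) * log ((m : ℝ) + 1) - m := by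
  induction m with
  | zero => simp
  | succ m ih => rw [Finset.sum_range_succ, ih]; simp only [alpha]; push_cast; ring_nf

/-- The pointwise inequality. -/
lemma gibbs_point (r R : ℕ) :
    (r : ℝ) * log (max 1 (R : ℝ)) - R
      ≤ ((r : ℝ) * log r - r) + (if 1 ≤ r ∧ R = 0 then 1 else 0) := by
  rcases Nat.eq_zero_or_pos r with hr | hr
  · subst hr; simp
  have hr' : (0 : ℝ) < r := by exact_mod_cast hr
  rcases Nat.eq_zero_or_pos R with hR | hR
  · subst hR
    rw [if_pos ⟨hr, rfl⟩]
    have h := mul_le_mul_of_nonneg_left (one_sub_inv_le_log_of_pos hr') hr'.le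
    rw [mul_sub, mul_inv_cancel₀ hr'.ne'] at h
    simp only [Nat.cast_zero, max_eq_left zero_le_one, log_one, mul_zero]
    linarith
  · have hR' : (1 : ℝ) ≤ R := by exact_mod_cast hR
    rw [max_eq_right hR', if_neg (by omega)]
    have h := mul_le_mul_of_nonneg_left
      (log_le_sub_one_of_pos (show (0 : ℝ) < R / r by positivity)) hr'.le
    rw [log_div (by linarith) hr'.ne', mul_sub, mul_sub, mul_one,
      show (r : ℝ) * (R / r) = R by field_simp] at h
    linarith

theorem gibbs_levels (R R' : ℕ) (a : Fin (R + 1) → ℕ) (b : Fin (R' + 1) → ℕ)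
    (ha : Antitone a) (hb : Antitone b) :
    (∑ t : Fin R', (log ((t : ℕ) + 2 : ℝ) - log ((t : ℕ) + 1 : ℝ))
        * ∑ i, min (a i : ℝ) (b t.succ : ℝ)) - ∑ j, (b j : ℝ)
      ≤ EntF (fun l : Fin R => (a l.succ : ℝ)) - a 0 + max ((a 0 : ℝ) - b 0) 0 := by
  set M := a 0 + b 0 + 1 with hM
  have haM : ∀ i, a i ≤ M := fun i => (ha (Fin.zero_le i)).trans (by omega)
  have hbM : ∀ j, b j ≤ M := fun j => (hb (Fin.zero_le j)).trans (by omega)
  set r : ℕ → ℕ := fun v => (Finset.univ.filter fun i => v < a i).card with hr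
  set c : ℕ → ℕ := fun v => (Finset.univ.filter fun j => v < b j).card with hc
  -- layer decompositions
  have hA : ∑ t : Fin R', (log ((t : ℕ) + 2 : ℝ) - log ((t : ℕ) + 1 : ℝ))
      * ∑ i, min (a i : ℝ) (b t.succ : ℝ)
      = ∑ v ∈ Finset.range M, (r v : ℝ) * log (max 1 (c v : ℝ)) := by
    have h1 : ∀ t : Fin R', (log ((t : ℕ) + 2 : ℝ) - log ((t : ℕ) + 1 : ℝ))
        * ∑ i, min (a i : ℝ) (b t.succ : ℝ)
        = ∑ v ∈ Finset.range M, (r v : ℝ) *
          (if v < b t.succ then (log ((t : ℕ) + 2 : ℝ) - log ((t : ℕ) + 1 : ℝ)) else 0) := by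
      intro t
      have h2 : ∑ i, min (a i : ℝ) (b t.succ : ℝ)
          = ∑ v ∈ Finset.range M, (r v : ℝ) * (if v < b t.succ then (1 : ℝ) else 0) := by
        have h3 : ∀ i, min (a i : ℝ) (b t.succ : ℝ)
            = ∑ v ∈ Finset.range M, (if v < a i then (1 : ℝ) else 0) *
              (if v < b t.succ then (1 : ℝ) else 0) := by
          intro i
          rw [← Nat.cast_min, cast_eq_sum_ind (le_trans (min_le_left _ _) (haM i))]
          refine Finset.sum_congr rfl fun v _ => ?_
          by_cases h : v < a i <;> simp [h, lt_min_iff]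
        rw [Finset.sum_congr rfl fun i _ => h3 i, Finset.sum_comm]
        refine Finset.sum_congr rfl fun v _ => ?_
        rw [← Finset.sum_mul, Finset.sum_boole]
      rw [h2, Finset.mul_sum]
      refine Finset.sum_congr rfl fun v _ => ?_
      by_cases h : v < b t.succ <;> simp [h, mul_comm]
    rw [Finset.sum_congr rfl fun t _ => h1 t, Finset.sum_comm]
    refine Finset.sum_congr rfl fun v _ => ?_
    rw [← Finset.mul_sum, sum_above hb v (fun t => log ((t : ℝ) + 2) - log ((t : ℝ) + 1)),
      log_diff_telescope]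
    congr 2
    rcases Nat.eq_zero_or_pos (c v) with h | h
    · simp only [hc] at h ⊢; rw [h]; simp
    · simp only [hc] at h ⊢
      rw [max_eq_right (by exact_mod_cast h), Nat.cast_sub h]
      push_cast; ring
  have hB : ∑ j, (b j : ℝ) = ∑ v ∈ Finset.range M, (c v : ℝ) := by
    rw [Finset.sum_congr rfl fun j _ => cast_eq_sum_ind (hbM j), Finset.sum_comm]
    exact Finset.sum_congr rfl fun v _ => by rw [Finset.sum_boole]
  have hE : EntF (fun l : Fin R => (a l.succ : ℝ)) - a 0
      = ∑ v ∈ Finset.range M, ((r v : ℝ) * log (r v) - r v) := by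
    rw [EntF, Finset.sum_congr rfl fun l _ => by rw [cast_eq_sum_ind (haM l.succ), Finset.mul_sum],
      Finset.sum_comm, cast_eq_sum_ind (haM 0), ← Finset.sum_sub_distrib]
    refine Finset.sum_congr rfl fun v _ => ?_
    have h1 : ∀ l : Fin R, alpha ((l : ℕ) + 1) * (if v < a l.succ then (1 : ℝ) else 0)
        = if v < a l.succ then alpha ((l : ℕ) + 1) else 0 := fun l => by
      by_cases h : v < a l.succ <;> simp [h]
    rw [Finset.sum_congr rfl fun l _ => h1 l, sum_above ha v (fun t => alpha (t + 1)),
      alpha_telescope]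
    have h0 := lt_card_above_iff ha v 0
    simp only [Fin.val_zero] at h0
    rcases Nat.eq_zero_or_pos (r v) with h | h
    · simp only [hr] at h ⊢
      rw [h, if_neg (fun hv => by have := h0.2 hv; omega)]
      simp
    · simp only [hr] at h ⊢
      rw [if_pos (h0.1 h), Nat.cast_sub h]
      push_cast; ring_nf
  have hmax : ∑ v ∈ Finset.range M, (if 1 ≤ r v ∧ c v = 0 then (1 : ℝ) else 0)
      ≤ max ((a 0 : ℝ) - b 0) 0 := by
    rw [Finset.sum_boole]
    have hsub : (Finset.range M).filter (fun v => 1 ≤ r v ∧ c v = 0) ⊆ Finset.Ico (b 0) (a 0) := by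
      intro v hv
      obtain ⟨-, h1, h2⟩ := Finset.mem_filter.1 hv
      have e1 := lt_card_above_iff ha v 0
      have e2 := lt_card_above_iff hb v 0
      simp only [Fin.val_zero] at e1 e2
      simp only [hr, hc] at h1 h2
      rw [Finset.mem_Ico]
      refine ⟨not_lt.1 fun h => ?_, e1.1 h1⟩
      have := e2.2 h
      omega
    refine le_trans (Nat.cast_le.2 (Finset.card_le_card hsub)) ?_
    rw [Nat.card_Ico]
    rcases le_total (b 0) (a 0) with h | h
    · rw [Nat.cast_sub h]; exact le_max_left _ _
    · rw [Nat.sub_eq_zero_of_le h, Nat.cast_zero]; exact le_max_right _ _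
  rw [hA, hB, hE, ← Finset.sum_sub_distrib]
  refine le_trans (Finset.sum_le_sum fun v _ => gibbs_point (r v) (c v)) ?_
  rw [Finset.sum_add_distrib]
  linarith

end Vale.Agent.P031
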