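import Vale.Agent.P031.Mertens
import Vale.Agent.P031.Decay

/-!
# Totient values: removing the common primes of a colliding pair
-/

open Finset Real
open scoped Classical

noncomputable section

namespace Vale.Agent.P031

/-- A colliding pair without common primes. -/
def RedPair (u Y : ℝ) (x : Rep × Rep) : Prop :=
  CollPair u Y x ∧ ∀ p ∈ x.1.ps, p ∉ x.2.ps

/-- Keeping a sublist of a decreasing list lowers every level. -/
lemma lv_sublist_le {l' l : List ℕ} (h : l'.Sublist l) (hd : l.Pairwise fun p q => q < p)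
    (hp : ∀ p ∈ l, 2 ≤ p) (hs : ∀ p ∈ l, 0 ≤ sc p) : ∀ i : ℕ, lv l' i ≤ lv l i := by
  induction h with
  | slnil => exact fun i => le_rfl
  | @cons t' t a h ih =>
    intro i
    rw [List.pairwise_cons] at hd
    have hp' : ∀ p ∈ t, 2 ≤ p := fun p hpm => hp p (List.mem_cons_of_mem _ hpm)
    have hs' : ∀ p ∈ t, 0 ≤ sc p := fun p hpm => hs p (List.mem_cons_of_mem _ hpm)
    refine (ih hd.2 hp' hs' i).trans ?_
    by_cases hi : i < t.length
    · rw [lv_of_lt hi, lv_of_lt (show i < (a :: t).length by simp; omega)]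
      rw [List.getD_eq_getElem _ _ hi]
      cases i with
      | zero =>
        rw [List.getD_cons_zero]
        exact sc_mono (hp' _ (List.getElem_mem hi)) (hd.1 _ (List.getElem_mem hi)).le
      | succ j =>
        rw [List.getD_cons_succ, List.getD_eq_getElem _ _ (show j < t.length by omega)]
        exact sc_mono (hp' _ (List.getElem_mem hi))
          (List.pairwise_iff_getElem.1 hd.2 j (j + 1) (by omega) hi (Nat.lt_succ_self j)).le
    · rw [lv_of_ge (not_lt.1 hi)]
      exact lv_nonneg hs i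
  | @cons_cons t' t a h ih =>
    intro i
    rw [List.pairwise_cons] at hd
    cases i with
    | zero => simp [lv]
    | succ j =>
      have h1 : ∀ l : List ℕ, lv (a :: l) (j + 1) = lv l j := fun l => by simp [lv]
      rw [h1, h1]
      exact ih hd.2 (fun p hpm => hp p (List.mem_cons_of_mem _ hpm))
        (fun p hpm => hs p (List.mem_cons_of_mem _ hpm)) j

lemma EntS_sublist_le {l' l : List ℕ} (h : l'.Sublist l) (hd : l.Pairwise fun p q => q < p)
    (hp : ∀ p ∈ l, 2 ≤ p) (hs : ∀ p ∈ l, 0 ≤ sc p) : EntS l' ≤ EntS l := by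
  rw [EntS_eq h.length_le, EntS_eq le_rfl]
  exact Finset.sum_le_sum fun i _ =>
    mul_le_mul_of_nonneg_left (lv_sublist_le h hd hp hs i) (alpha_nonneg' i)

/-- Subsets of bounded size carry weight at most a power of the total. -/
lemma sum_small_subsets (w : ℕ → ℝ) (P : Finset ℕ) (hw : ∀ p ∈ P, 0 ≤ w p) :
    ∀ n : ℕ, ∑ A ∈ P.powerset.filter (fun A => A.card ≤ n), ∏ p ∈ A, w p
      ≤ (1 + ∑ p ∈ P, w p) ^ n := by
  induction P using Finset.induction_on with
  | empty => intro n; simp [Finset.filter_singleton]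
  | @insert a P ha ih =>
    have hwP : ∀ p ∈ P, 0 ≤ w p := fun p hp => hw p (Finset.mem_insert_of_mem hp)
    have hwa : 0 ≤ w a := hw a (Finset.mem_insert_self _ _)
    intro n
    rw [Finset.sum_filter, Finset.sum_powerset_insert ha, Finset.sum_insert ha]
    have hS : 0 ≤ ∑ p ∈ P, w p := Finset.sum_nonneg hwP
    cases n with
    | zero =>
      have h0 := ih hwP 0
      rw [Finset.sum_filter] at h0
      rw [Finset.sum_eq_zero (s := P.powerset)
        (f := fun t => if (insert a t).card ≤ 0 then ∏ p ∈ insert a t, w p else 0), add_zero]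
      · simpa using h0
      · intro t _
        rw [if_neg (by simp)]
    | succ m =>
      have h1 := ih hwP (m + 1)
      have h2 := ih hwP m
      rw [Finset.sum_filter] at h1 h2
      have e : ∑ t ∈ P.powerset,
          (if (insert a t).card ≤ m + 1 then ∏ p ∈ insert a t, w p else 0)
          = w a * ∑ t ∈ P.powerset, (if t.card ≤ m then ∏ p ∈ t, w p else 0) := by
        rw [Finset.mul_sum]
        refine Finset.sum_congr rfl fun t ht => ?_
        have hat : a ∉ t := fun h => ha (Finset.mem_powerset.1 ht h)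
        rw [Finset.card_insert_of_notMem hat, Finset.prod_insert hat]
        simp [mul_ite]
      rw [e]
      have h3 : (1 + ∑ p ∈ P, w p) ^ m ≤ (1 + (w a + ∑ p ∈ P, w p)) ^ m :=
        pow_le_pow_left₀ (by linarith) (by linarith) m
      have h4 := mul_le_mul_of_nonneg_left (h2.trans h3) hwa
      have h5 := mul_le_mul_of_nonneg_right h3 (show 0 ≤ 1 + ∑ p ∈ P, w p by linarith)
      rw [pow_succ] at h1 ⊢
      nlinarith

/-- Primes shared by the two lists. -/
def common (x : Rep × Rep) : Finset ℕ := x.1.ps.toFinset ∩ x.2.ps.toFinset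

/-- The pair with the shared primes removed. -/
def strip (x : Rep × Rep) : Rep × Rep :=
  (⟨x.1.ps.filter fun p => decide (p ∉ x.2.ps), x.1.tl⟩,
    ⟨x.2.ps.filter fun p => decide (p ∉ x.1.ps), x.2.tl⟩)

/-- The product of `p - 1` over a set. -/
def cprod (A : Finset ℕ) : ℕ := ∏ p ∈ A, (p - 1)

lemma val_split (r : Rep) (l : List ℕ) (hd : r.ps.Nodup) :
    r.val = cprod (r.ps.toFinset ∩ l.toFinset) *
      Rep.val ⟨r.ps.filter fun p => decide (p ∉ l), r.tl⟩ := by
  have h1 : r.ps.toFinset.filter (fun p => p ∈ l) = r.ps.toFinset ∩ l.toFinset := by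
    ext p; simp
  have h2 : r.ps.toFinset.filter (fun p => p ∉ l)
      = (r.ps.filter fun p => decide (p ∉ l)).toFinset := by
    ext p; simp
  unfold Rep.val cprod
  rw [← List.prod_toFinset _ hd, ← List.prod_toFinset _ (hd.filter _),
    ← Finset.prod_filter_mul_prod_filter_not r.ps.toFinset (fun p => p ∈ l) (fun p => p - 1),
    h1, h2, mul_assoc]

lemma rep_nodup {u Y : ℝ} {r : Rep} (h : RepOK u Y r) : r.ps.Nodup :=
  h.2.1.imp fun hab => (ne_of_lt hab).symm

lemma mem_le_headI {l : List ℕ} (hd : l.Pairwise fun p q => q < p) {p : ℕ} (hp : p ∈ l) :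
    p ≤ l.headI := by
  cases l with
  | nil => simp at hp
  | cons b t =>
    rw [List.pairwise_cons] at hd
    rcases List.mem_cons.1 hp with rfl | hp
    · exact le_rfl
    · exact (hd.1 p hp).le

/-- Stripping gives a pair without common primes. -/
lemma strip_redPair {u Y : ℝ} (hu : 100 ≤ u) (hY : 0 ≤ Y) (hYu : Y ≤ u / 2) {x : Rep × Rep}
    (h : CollPair u Y x) :
    RedPair u Y (strip x) ∧ x.1.val = cprod (common x) * (strip x).1.val ∧
      cprod (common x) ≠ 0 := by
  obtain ⟨h1, h2, hval, hlt, htop, hent⟩ := h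
  have hv1 : x.1.val = cprod (common x) * (strip x).1.val := val_split x.1 x.2.ps (rep_nodup h1)
  have hv2 : x.2.val = cprod (common x) * (strip x).2.val := by
    have := val_split x.2 x.1.ps (rep_nodup h2)
    rw [Finset.inter_comm] at this
    exact this
  have hpr : ∀ p ∈ x.1.ps, p.Prime := fun p hp => (h1.2.2.2.1 p hp).1
  have hc0 : cprod (common x) ≠ 0 := by
    refine Finset.prod_ne_zero_iff.2 fun p hp => ?_
    have := (hpr p (List.mem_toFinset.1 (Finset.mem_inter.1 hp).1)).two_le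
    omega
  have hval' : (strip x).1.val = (strip x).2.val :=
    Nat.eq_of_mul_eq_mul_left (Nat.pos_of_ne_zero hc0) (by rw [← hv1, ← hv2, hval])
  obtain ⟨a, t, hat⟩ := List.exists_cons_of_ne_nil h1.1
  have ha1 : x.1.ps.headI = a := by rw [hat]; rfl
  have hamem : a ∈ x.1.ps := by rw [hat]; exact List.mem_cons_self
  have hanot : a ∉ x.2.ps := fun hm => by
    have := mem_le_headI h2.2.1 hm
    rw [ha1] at hlt
    omega
  have hps1 : (strip x).1.ps = a :: t.filter fun p => decide (p ∉ x.2.ps) := by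
    simp [strip, hat, hanot]
  have hne2 : (strip x).2.ps ≠ [] := by
    intro he
    obtain ⟨haP, hN, haY, hau⟩ := h1.2.2.2.1 a hamem
    obtain ⟨q, hq, hqd, hqs⟩ := hN.2
    have hdvd : q ∣ (strip x).2.val := by
      rw [← hval']
      refine dvd_trans hqd ?_
      rw [Rep.val, hps1, List.map_cons, List.prod_cons, mul_assoc]
      exact dvd_mul_right _ _
    rw [Rep.val, he] at hdvd
    have hqY : sc q ≤ Y := h2.2.2.2.2.2 q hq (by simpa [strip] using hdvd)
    rw [ha1] at htop
    have l1 : ∀ z : ℝ, 0 < z → log z ≤ z / 40 + 3 := fun z hz => by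
      have := log_le_sub_one_of_pos (show 0 < z / 40 by positivity)
      rw [log_div hz.ne' (by norm_num)] at this
      have h40 : log (40 : ℝ) ≤ 4 := by
        rw [log_le_iff_le_exp (by norm_num), show (4 : ℝ) = (4 : ℕ) * (1 : ℝ) by norm_num,
          exp_nat_mul]
        calc (40 : ℝ) ≤ (2.6 : ℝ) ^ 4 := by norm_num
          _ ≤ exp 1 ^ 4 := pow_le_pow_left₀ (by norm_num) (by linarith [exp_one_gt_d9]) 4
      linarith
    have l2 := l1 (u + 2) (by linarith)
    have hsa : 0 ≤ sc a := by linarith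
    have l3 : log (sc a + 2) ≤ log (u + 3) := log_le_log (by linarith) (by linarith)
    have l4 := l1 (u + 3) (by linarith)
    linarith
  have hfil : ∀ (r : Rep) (l : List ℕ), RepOK u Y r →
      (r.ps.filter fun p => decide (p ∉ l)) ≠ [] →
      RepOK u Y ⟨r.ps.filter fun p => decide (p ∉ l), r.tl⟩ := fun r l hr hne =>
    ⟨hne, hr.2.1.filter _, le_trans (List.length_filter_le _ _) hr.2.2.1,
      fun p hp => hr.2.2.2.1 p (List.mem_of_mem_filter hp), hr.2.2.2.2⟩
  refine ⟨⟨⟨hfil x.1 x.2.ps h1 (show (strip x).1.ps ≠ [] by rw [hps1]; exact List.cons_ne_nil _ _),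
    hfil x.2 x.1.ps h2 hne2, hval', ?_, ?_, ?_⟩, ?_⟩, hv1, hc0⟩
  · rw [hps1]
    obtain ⟨b, s, hbs⟩ := List.exists_cons_of_ne_nil hne2
    rw [hbs]
    show b < a
    have hb : b ∈ x.2.ps := by
      have : b ∈ (strip x).2.ps := by rw [hbs]; exact List.mem_cons_self
      exact List.mem_of_mem_filter this
    have := mem_le_headI h2.2.1 hb
    rw [ha1] at hlt
    omega
  · rw [hps1]
    show u - 4 * log (u + 2) - 4 ≤ sc a
    rwa [ha1] at htop
  · rw [hps1]
    show EntS (t.filter _) ≤ _
    rw [hat] at hent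
    refine le_trans (EntS_sublist_le List.filter_sublist ?_ ?_ ?_) hent
    · have := h1.2.1
      rw [hat] at this
      exact (List.pairwise_cons.1 this).2
    · intro p hp
      exact (hpr p (by rw [hat]; exact List.mem_cons_of_mem _ hp)).two_le
    · intro p hp
      have := (h1.2.2.2.1 p (by rw [hat]; exact List.mem_cons_of_mem _ hp)).2.2.1
      linarith
  · intro p hp hp2
    simp only [strip, List.mem_filter, decide_eq_true_eq] at hp hp2
    exact hp.2 hp2.1

/-- The shared primes and the stripped pair determine the pair. -/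
lemma strip_inj {u Y : ℝ} {x y : Rep × Rep} (hx : CollPair u Y x) (hy : CollPair u Y y)
    (hc : common x = common y) (hs : strip x = strip y) : x = y := by
  have e1 := congrArg (fun z : Rep × Rep => z.1) hs
  have e2 := congrArg (fun z : Rep × Rep => z.2) hs
  simp only [strip, Rep.mk.injEq] at e1 e2
  have key : ∀ (a b c d : List ℕ), a.Pairwise (fun p q => q < p) → b.Pairwise (fun p q => q < p) →
      a.toFinset ∩ c.toFinset = b.toFinset ∩ d.toFinset →
      (a.filter fun p => decide (p ∉ c)) = (b.filter fun p => decide (p ∉ d)) → a = b := by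
    intro a b c d ha hb hcd hf
    refine desc_ext ha hb fun q => ?_
    have m1 : q ∈ a.toFinset ∩ c.toFinset ↔ q ∈ b.toFinset ∩ d.toFinset := by rw [hcd]
    have m2 : q ∈ (a.filter fun p => decide (p ∉ c)) ↔ q ∈ (b.filter fun p => decide (p ∉ d)) := by
      rw [hf]
    simp only [Finset.mem_inter, List.mem_toFinset] at m1
    simp only [List.mem_filter, decide_eq_true_eq] at m2
    tauto
  have p1 := key _ _ _ _ hx.1.2.1 hy.1.2.1 hc e1.1
  have p2 := key _ _ _ _ hx.2.1.2.1 hy.2.1.2.1
    (by unfold common at hc; rw [Finset.inter_comm, hc, Finset.inter_comm]) e2.1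
  obtain ⟨⟨a, b⟩, c, d⟩ := x
  obtain ⟨⟨a', b'⟩, c', d'⟩ := y
  simp_all

/-- The total weight of the possible shared sets. -/
lemma common_weight : ∃ C : ℝ, 0 < C ∧ ∀ u Y : ℝ, 100 ≤ u → 0 ≤ Y → ∀ S : Finset (Rep × Rep),
    (∀ x ∈ S, CollPair u Y x) →
    ∑ A ∈ S.image common, (1 : ℝ) / cprod A ≤ exp (C * ((Kb u : ℝ) + 2) * log (u + 4)) := by
  obtain ⟨C0, hC0, hM⟩ := mertens_upper
  refine ⟨1 + log (2 * C0 + 4), by linarith [log_pos (show (1 : ℝ) < 2 * C0 + 4 by linarith)],
    fun u Y hu hY S hS => ?_⟩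
  set P := primesTo (u + 1)
  set n := Kb u + 1
  have hsub : S.image common ⊆ P.powerset.filter fun A => A.card ≤ n := by
    intro A hA
    obtain ⟨x, hx, rfl⟩ := Finset.mem_image.1 hA
    have h1 := (hS x hx).1
    refine Finset.mem_filter.2 ⟨Finset.mem_powerset.2 fun p hp => ?_, ?_⟩
    · have := h1.2.2.2.1 p (List.mem_toFinset.1 (Finset.mem_inter.1 hp).1)
      exact mem_primesTo_iff.2 ⟨this.1, this.2.2.2⟩
    · exact (Finset.card_le_card Finset.inter_subset_left).trans
        ((List.toFinset_card_le _).trans h1.2.2.1)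
  have hPp : ∀ p ∈ P, (2 : ℝ) ≤ p := fun p hp => by
    exact_mod_cast (mem_primesTo_iff.1 hp).1.two_le
  have hw : ∀ p ∈ P, (0 : ℝ) ≤ 1 / ((p : ℝ) - 1) := fun p hp =>
    div_nonneg zero_le_one (by linarith [hPp p hp])
  calc ∑ A ∈ S.image common, (1 : ℝ) / cprod A
      = ∑ A ∈ S.image common, ∏ p ∈ A, (1 : ℝ) / ((p : ℝ) - 1) := by
        refine Finset.sum_congr rfl fun A hA => ?_
        have hAP := Finset.mem_powerset.1 (Finset.mem_filter.1 (hsub hA)).1
        unfold cprod
        rw [Nat.cast_prod, one_div, ← Finset.prod_inv_distrib]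
        refine Finset.prod_congr rfl fun p hp => ?_
        rw [Nat.cast_sub (mem_primesTo_iff.1 (hAP hp)).1.one_le, Nat.cast_one, one_div]
    _ ≤ ∑ A ∈ P.powerset.filter (fun A => A.card ≤ n), ∏ p ∈ A, (1 : ℝ) / ((p : ℝ) - 1) :=
        Finset.sum_le_sum_of_subset_of_nonneg hsub fun A hA _ =>
          Finset.prod_nonneg fun p hp =>
            hw p (Finset.mem_powerset.1 (Finset.mem_filter.1 hA).1 hp)
    _ ≤ (1 + ∑ p ∈ P, (1 : ℝ) / ((p : ℝ) - 1)) ^ n := sum_small_subsets _ P hw n
    _ ≤ ((2 * C0 + 4) * (u + 4)) ^ n := by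
        refine pow_le_pow_left₀ (by linarith [Finset.sum_nonneg hw]) ?_ n
        have h1 : ∑ p ∈ P, (1 : ℝ) / ((p : ℝ) - 1) ≤ 2 * ∑ p ∈ P, (1 : ℝ) / p := by
          rw [Finset.mul_sum]
          refine Finset.sum_le_sum fun p hp => ?_
          have hp2 := hPp p hp
          rw [mul_one_div, div_le_div_iff₀ (by linarith) (by linarith)]
          linarith
        have h2 := hM (u + 1) (by linarith)
        nlinarith
    _ ≤ exp ((1 + log (2 * C0 + 4)) * ((Kb u : ℝ) + 2) * log (u + 4)) := by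
        rw [← exp_log (show 0 < (2 * C0 + 4) * (u + 4) by positivity), ← exp_nat_mul, exp_le_exp,
          log_mul (by positivity) (by positivity)]
        have h1 : (1 : ℝ) ≤ log (u + 4) := by
          rw [le_log_iff_exp_le (by linarith)]; linarith [exp_one_lt_d9]
        have h2 : 0 ≤ log (2 * C0 + 4) := log_nonneg (by linarith)
        have h3 : (n : ℝ) ≤ (Kb u : ℝ) + 2 := by simp [n]
        have h4 := mul_le_mul_of_nonneg_left h1 h2
        calc (n : ℝ) * (log (2 * C0 + 4) + log (u + 4))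
            ≤ ((Kb u : ℝ) + 2) * ((1 + log (2 * C0 + 4)) * log (u + 4)) :=
              mul_le_mul h3 (by linarith) (by linarith) (by positivity)
          _ = _ := by ring

theorem reduce_recip : ∃ C : ℝ, 0 < C ∧ ∀ u Y B : ℝ, 100 ≤ u → 0 ≤ Y → Y ≤ u / 2 →
    (∀ S' : Finset (Rep × Rep), (∀ x ∈ S', RedPair u Y x) →
      ∑ x ∈ S', (1 : ℝ) / x.1.val ≤ B) →
    ∀ S : Finset (Rep × Rep), (∀ x ∈ S, CollPair u Y x) →
      ∑ x ∈ S, (1 : ℝ) / x.1.val ≤ exp (C * ((Kb u : ℝ) + 2) * log (u + 4)) * B := by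
  obtain ⟨C, hC, hW⟩ := common_weight
  refine ⟨C, hC, fun u Y B hu hY hYu hB S hS => ?_⟩
  have hB0 : 0 ≤ B := by simpa using hB ∅ (by simp)
  rw [← Finset.sum_fiberwise_of_maps_to (g := common) (t := S.image common)
    fun x hx => Finset.mem_image_of_mem _ hx]
  refine le_trans (Finset.sum_le_sum fun A hA => ?_)
    ((le_of_eq (Finset.sum_mul _ _ _).symm).trans
      (mul_le_mul_of_nonneg_right (hW u Y hu hY S hS) hB0))
  set F := S.filter fun x => common x = A with hF
  have hprop : ∀ x ∈ F, RedPair u Y (strip x) ∧ x.1.val = cprod A * (strip x).1.val := by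
    intro x hx
    obtain ⟨hxS, hxA⟩ := Finset.mem_filter.1 hx
    obtain ⟨h1, h2, -⟩ := strip_redPair hu hY hYu (hS x hxS)
    exact ⟨h1, hxA ▸ h2⟩
  have hinj : Set.InjOn strip F := fun x hx y hy he =>
    strip_inj (hS x (Finset.mem_filter.1 hx).1) (hS y (Finset.mem_filter.1 hy).1)
      ((Finset.mem_filter.1 hx).2.trans (Finset.mem_filter.1 hy).2.symm) he
  have h := hB (F.image strip) fun z hz => by
    obtain ⟨x, hx, rfl⟩ := Finset.mem_image.1 hz
    exact (hprop x hx).1
  rw [Finset.sum_image hinj] at h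
  refine le_trans (le_of_eq ?_) (mul_le_mul_of_nonneg_left h (by positivity))
  rw [Finset.mul_sum]
  refine Finset.sum_congr rfl fun x hx => ?_
  rw [(hprop x hx).2, Nat.cast_mul, one_div_mul_one_div]

theorem reduce_count : ∃ C : ℝ, 0 < C ∧ ∀ u Y B : ℝ, 100 ≤ u → 0 ≤ Y → Y ≤ u / 2 →
    (∀ (X' : ℝ) (S' : Finset (Rep × Rep)), 0 ≤ X' →
      (∀ x ∈ S', RedPair u Y x ∧ (x.1.val : ℝ) ≤ X') → (S'.card : ℝ) ≤ B * X') →
    ∀ (X : ℝ) (S : Finset (Rep × Rep)), 0 ≤ X →
      (∀ x ∈ S, CollPair u Y x ∧ (x.1.val : ℝ) ≤ X) →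
      (S.card : ℝ) ≤ exp (C * ((Kb u : ℝ) + 2) * log (u + 4)) * B * X := by
  obtain ⟨C, hC, hW⟩ := common_weight
  refine ⟨C, hC, fun u Y B hu hY hYu hB X S hX hS => ?_⟩
  have hB0 : 0 ≤ B := by simpa using hB 1 ∅ zero_le_one (by simp)
  have hS' : ∀ x ∈ S, CollPair u Y x := fun x hx => (hS x hx).1
  rw [Finset.card_eq_sum_card_fiberwise (f := common) (t := S.image common)
    fun x hx => Finset.mem_image_of_mem _ hx]
  push_cast
  rw [mul_assoc]
  refine le_trans (Finset.sum_le_sum fun A hA => ?_)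
    ((le_of_eq (Finset.sum_mul _ _ _).symm).trans
      (mul_le_mul_of_nonneg_right (hW u Y hu hY S hS') (mul_nonneg hB0 hX)))
  set F := S.filter fun x => common x = A with hF
  have hinj : Set.InjOn strip F := fun x hx y hy he =>
    strip_inj (hS' x (Finset.mem_filter.1 hx).1) (hS' y (Finset.mem_filter.1 hy).1)
      ((Finset.mem_filter.1 hx).2.trans (Finset.mem_filter.1 hy).2.symm) he
  have h := hB (X / cprod A) (F.image strip) (by positivity) fun z hz => by
    obtain ⟨x, hx, rfl⟩ := Finset.mem_image.1 hz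
    obtain ⟨hxS, hxA⟩ := Finset.mem_filter.1 hx
    obtain ⟨h1, h2, h3⟩ := strip_redPair hu hY hYu (hS' x hxS)
    refine ⟨h1, ?_⟩
    rw [hxA] at h2 h3
    rw [le_div_iff₀ (by exact_mod_cast Nat.pos_of_ne_zero h3)]
    have := (hS x hxS).2
    rw [h2, Nat.cast_mul] at this
    linarith
  rw [Finset.card_image_of_injOn hinj] at h
  refine h.trans (le_of_eq ?_)
  ring

end Vale.Agent.P031
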