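import Vale.Agent.P031.Collide.Peel
import Vale.Agent.P031.Collide.Entropy
import Vale.Agent.P031.Collide.ColWeight
import Vale.Agent.P031.Collide.Reduce

/-!
# Totient values: colliding pairs with prescribed levels
-/

open Finset Real
open scoped Classical

noncomputable section

namespace Vale.Agent.P031

/-- Integer levels of a list of primes. -/
def levs (l : List ℕ) : List ℕ := l.map fun p => ⌈sc p⌉₊

/-- Lower scale of the largest prime below `p - 1` for a level `a`. -/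
def loOf (u : ℝ) {n : ℕ} (a : Fin n → ℕ) (i : Fin n) : ℝ := (a i : ℝ) - 1 - 3 * log (u + 3)

/-- Matrix conditions for a pair with levels `a`, `b`. -/
def MatFor (u Y : ℝ) {n n' : ℕ} (a : Fin n → ℕ) (b : Fin n' → ℕ) (x : Rep × Rep)
    (d : Option (Fin n) × Option (Fin n') → ℕ) : Prop :=
  PeelCond u Y a b (loOf u a) (loOf u b) Finset.univ Finset.univ d ∧
    ∏ c, d c = x.1.val ∧
    x.1 = ⟨List.ofFn fun i => rowP d i + 1, ∏ j, d (none, j)⟩ ∧
    x.2 = ⟨List.ofFn fun j => colP d j + 1, ∏ i, d (i, none)⟩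

lemma list_eq_ofFn {l : List ℕ} {n : ℕ} (h : l.length = n) :
    l = List.ofFn fun i : Fin n => l.getD i 0 := by
  refine List.ext_getElem (by simp [h]) fun i h1 h2 => ?_
  rw [List.getElem_ofFn, List.getD_eq_getElem _ _ h1]

lemma getD_mem' {l : List ℕ} {n : ℕ} (h : l.length = n) (i : Fin n) : l.getD i 0 ∈ l := by
  have hi : (i : ℕ) < l.length := h ▸ i.isLt
  rw [List.getD_eq_getElem _ _ hi]
  exact List.getElem_mem hi

lemma levs_getD (l : List ℕ) {i : ℕ} (hi : i < l.length) :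
    (levs l).getD i 0 = ⌈sc (l.getD i 0)⌉₊ := by
  rw [List.getD_eq_getElem _ _ (by simpa [levs] using hi), List.getD_eq_getElem _ _ hi]
  simp [levs]

lemma levs_anti {l : List ℕ} {n : ℕ} (h : l.length = n) (hl : l.Pairwise fun p q => q < p)
    (hp : ∀ p ∈ l, p.Prime) (a : Fin n → ℕ) (ha : ∀ i, a i = ⌈sc (l.getD i 0)⌉₊) : Antitone a := by
  intro i j hij
  rcases eq_or_lt_of_le hij with rfl | hlt
  · exact le_rfl
  have hj : (j : ℕ) < l.length := h ▸ j.isLt
  have hi : (i : ℕ) < l.length := h ▸ i.isLt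
  rw [ha i, ha j]
  refine Nat.ceil_le_ceil (sc_mono (hp _ (getD_mem' h j)).two_le (le_of_lt ?_))
  rw [List.getD_eq_getElem _ _ hi, List.getD_eq_getElem _ _ hj]
  exact List.pairwise_iff_getElem.1 hl i j hi hj hlt

/-- A line of the matrix is usable. -/
lemma lineOK_of {u Y : ℝ} (hY : 0 ≤ Y) {r : Rep} (hr : RepOK u Y r) {p : ℕ} (hp : p ∈ r.ps)
    {a : ℕ} (ha : a = ⌈sc p⌉₊) {m : ℕ} (hm : m + 1 = p) :
    LineOK u ((a : ℝ) - 1 - 3 * log (u + 3)) m ∧ (a : ℝ) ≤ u + 2 := by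
  obtain ⟨hpp, hN, hYp, hpu⟩ := hr.2.2.2.1 p hp
  have hs : 0 < sc p := lt_of_le_of_lt hY hYp
  have hc : (a : ℝ) < sc p + 1 := ha ▸ Nat.ceil_lt_add_one hs.le
  refine ⟨⟨hm ▸ hpp, ?_, ?_⟩, by linarith⟩
  · have hm1 : 1 ≤ m := by have := hpp.two_le; omega
    have h1 : log (m : ℝ) ≤ log (p : ℝ) :=
      log_le_log (by exact_mod_cast hm1) (by exact_mod_cast (show m ≤ p by omega))
    refine h1.trans ?_
    calc log (p : ℝ) = exp (sc p) := by rw [sc, exp_log (log_prime_pos hpp)]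
      _ ≤ exp (u + 3) := exp_le_exp.2 (by linarith)
  · obtain ⟨q, hq, hqd, hql⟩ := hN.2
    refine ⟨q, hq, (show p - 1 = m by omega) ▸ hqd, le_trans ?_ hql⟩
    have : log (sc p + 2) ≤ log (u + 3) := log_le_log (by linarith) (by linarith)
    linarith

/-- Every pair gives a matrix. -/
lemma pair_matrix {u Y : ℝ} (hY : 0 ≤ Y) {n n' : ℕ} {x : Rep × Rep} (hx : RedPair u Y x)
    (h1 : x.1.ps.length = n) (h2 : x.2.ps.length = n') (a : Fin n → ℕ) (b : Fin n' → ℕ)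
    (ha : ∀ i, a i = ⌈sc (x.1.ps.getD i 0)⌉₊) (hb : ∀ j, b j = ⌈sc (x.2.ps.getD j 0)⌉₊) :
    ∃ d, MatFor u Y a b x d := by
  obtain ⟨⟨hr1, hr2, hval, -, -, -⟩, hdis⟩ := hx
  set P : Fin n → ℕ := fun i => x.1.ps.getD i 0 with hP
  set Q : Fin n' → ℕ := fun j => x.2.ps.getD j 0 with hQ
  have hPm : ∀ i, P i ∈ x.1.ps := getD_mem' h1
  have hQm : ∀ j, Q j ∈ x.2.ps := getD_mem' h2
  have hP2 : ∀ i, 2 ≤ P i := fun i => (hr1.2.2.2.1 _ (hPm i)).1.two_le
  have hQ2 : ∀ j, 2 ≤ Q j := fun j => (hr2.2.2.2.1 _ (hQm j)).1.two_le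
  set rows : Option (Fin n) → ℕ := fun I => I.elim x.1.tl fun i => P i - 1 with hrows
  set cols : Option (Fin n') → ℕ := fun J => J.elim x.2.tl fun j => Q j - 1 with hcols
  have hprow : ∏ I, rows I = x.1.val := by
    rw [Fintype.prod_option]
    simp only [hrows, Option.elim_none, Option.elim_some, Rep.val]
    conv_rhs => rw [list_eq_ofFn h1, List.map_ofFn, List.prod_ofFn]
    rw [mul_comm]; rfl
  have hpcol : ∏ J, cols J = x.2.val := by
    rw [Fintype.prod_option]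
    simp only [hcols, Option.elim_none, Option.elim_some, Rep.val]
    conv_rhs => rw [list_eq_ofFn h2, List.map_ofFn, List.prod_ofFn]
    rw [mul_comm]; rfl
  have hr0 : ∀ I, rows I ≠ 0 := by
    rintro (_ | i)
    · exact hr1.2.2.2.2.1
    · simp only [hrows, Option.elim_some]; have := hP2 i; omega
  obtain ⟨d, hd1, hd2⟩ := exists_matrix rows cols hr0 (by rw [hprow, hpcol, hval])
  refine ⟨fun c => d c.1 c.2, ?_, ?_, ?_, ?_⟩
  · have hrP : ∀ i, rowP (fun c => d c.1 c.2) i + 1 = P i := fun i => by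
      have := hP2 i
      simp only [rowP, hd1, hrows, Option.elim_some]; omega
    have hcP : ∀ j, colP (fun c => d c.1 c.2) j + 1 = Q j := fun j => by
      have := hQ2 j
      simp only [colP, hd2, hcols, Option.elim_some]; omega
    refine ⟨?_, fun i _ => (lineOK_of hY hr1 (hPm i) (ha i) (hrP i)).1,
      fun j _ => (lineOK_of hY hr2 (hQm j) (hb j) (hcP j)).1, ?_⟩
    · rintro ⟨I, J⟩
      have hdI : d I J ∣ rows I := hd1 I ▸ Finset.dvd_prod_of_mem _ (Finset.mem_univ J)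
      have hdJ : d I J ∣ cols J := hd2 J ▸ Finset.dvd_prod_of_mem _ (Finset.mem_univ I)
      refine ⟨fun h0 => hr0 I (Nat.eq_zero_of_zero_dvd (h0 ▸ hdI)), fun q hq hqd => ?_⟩
      have hqI := hqd.trans hdI
      have hqJ := hqd.trans hdJ
      rcases I with _ | i
      · exact hr1.2.2.2.2.2 q hq hqI
      rcases J with _ | j
      · exact hr2.2.2.2.2.2 q hq hqJ
      simp only [hrows, hcols, Option.elim_some] at hqI hqJ
      have e1 : sc q ≤ (a i : ℝ) := by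
        have := hP2 i
        rw [ha i]
        exact (sc_mono hq.two_le ((Nat.le_of_dvd (by omega) hqI).trans (Nat.sub_le _ _))).trans
          (Nat.le_ceil _)
      have e2 : sc q ≤ (b j : ℝ) := by
        have := hQ2 j
        rw [hb j]
        exact (sc_mono hq.two_le ((Nat.le_of_dvd (by omega) hqJ).trans (Nat.sub_le _ _))).trans
          (Nat.le_ceil _)
      exact le_trans (le_min e1 e2) (le_max_right _ _)
    · intro i _ j _ e
      have e' : P i = Q j := by rw [← hrP i, ← hcP j, e]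
      exact hdis (P i) (hPm i) (e' ▸ hQm j)
  · rw [Fintype.prod_prod_type, ← hprow]
    exact Finset.prod_congr rfl fun I _ => hd1 I
  · have e1 : (List.ofFn fun i => rowP (fun c => d c.1 c.2) i + 1) = x.1.ps := by
      conv_rhs => rw [list_eq_ofFn h1]
      congr 1
      funext i
      have := hP2 i
      simp only [rowP, hd1, hrows, Option.elim_some, hP] at this ⊢; omega
    rw [e1]
    simp only [hd1, hrows, Option.elim_none]
  · have e1 : (List.ofFn fun j => colP (fun c => d c.1 c.2) j + 1) = x.2.ps := by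
      conv_rhs => rw [list_eq_ofFn h2]
      congr 1
      funext j
      have := hQ2 j
      simp only [colP, hd2, hcols, Option.elim_some, hQ] at this ⊢; omega
    rw [e1]
    simp only [hd2, hcols, Option.elim_none]

lemma wt_prod {ι : Type*} (g : ℕ → ℝ) (s : Finset ι) (f : ι → ℕ) (h : ∀ c ∈ s, f c ≠ 0) :
    wt g (∏ c ∈ s, f c) = ∏ c ∈ s, wt g (f c) := by
  induction s using Finset.cons_induction with
  | empty => simp [wt_one]
  | cons c s hc ih =>
    have h' : ∀ e ∈ s, f e ≠ 0 := fun e he => h e (Finset.mem_cons_of_mem he)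
    rw [Finset.prod_cons, Finset.prod_cons, wt_mul g (h c (Finset.mem_cons_self c s))
      (Finset.prod_ne_zero_iff.2 h'), ih h']

/-- Cost of the weight. -/
def Bd (u : ℝ) {R R' : ℕ} (a : Fin (R + 1) → ℕ) (b : Fin (R' + 1) → ℕ) : ℝ :=
  (∑ t : Fin R', (log ((t : ℕ) + 2 : ℝ) - log ((t : ℕ) + 1 : ℝ))
    * ∑ i, min (a i : ℝ) (b t.succ : ℝ)) + ((Kb u : ℝ) + 1) ^ 2 * Dv (u + 1)

/-- Facts about one pair with levels `a`, `b`. -/
lemma pair_bounds {u Y : ℝ} (hu : 0 ≤ u) (hY : 0 ≤ Y) {R R' : ℕ} {x : Rep × Rep}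
    (hx : RedPair u Y x) (h1 : x.1.ps.length = R + 1) (h2 : x.2.ps.length = R' + 1)
    (a : Fin (R + 1) → ℕ) (b : Fin (R' + 1) → ℕ)
    (ha : ∀ i, a i = ⌈sc (x.1.ps.getD i 0)⌉₊) (hb : ∀ j, b j = ⌈sc (x.2.ps.getD j 0)⌉₊) :
    Antitone a ∧ Antitone b ∧ (∀ i, (a i : ℝ) ≤ u + 2) ∧
      exp (-Bd u a b) ≤ wt (colWt Y b) x.1.val ∧
      u - 4 * log (u + 2) - 4 ≤ (a 0 : ℝ) ∧
      (a 0 : ℝ) - b 0 ≤ Y + 1 + 3 * log (u + 3) ∧
      EntF (fun l : Fin R => (a l.succ : ℝ)) ≤ u - Del u / 4 + ((Kb u : ℝ) + 1) ^ 2 := by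
  obtain ⟨⟨hr1, hr2, hval, -, hbig, hent⟩, -⟩ := hx
  have hP : ∀ i : Fin (R + 1), x.1.ps.getD i 0 ∈ x.1.ps := getD_mem' h1
  have hQ : ∀ j : Fin (R' + 1), x.2.ps.getD j 0 ∈ x.2.ps := getD_mem' h2
  have hAa := levs_anti h1 hr1.2.1 (fun p hp => (hr1.2.2.2.1 p hp).1) a ha
  have hAb := levs_anti h2 hr2.2.1 (fun p hp => (hr2.2.2.2.1 p hp).1) b hb
  have hsc : ∀ p ∈ x.1.ps, 0 ≤ sc p := fun p hp => hY.trans (hr1.2.2.2.1 p hp).2.2.1.le
  have hau : ∀ i, (a i : ℝ) ≤ u + 2 := fun i => by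
    have e := Nat.ceil_lt_add_one (hsc _ (hP i))
    have := (hr1.2.2.2.1 _ (hP i)).2.2.2
    rw [ha i]; linarith
  have hK : (R : ℝ) + 1 ≤ (Kb u : ℝ) + 1 ∧ (R' : ℝ) + 1 ≤ (Kb u : ℝ) + 1 := by
    constructor
    · exact_mod_cast h1 ▸ hr1.2.2.1
    · exact_mod_cast h2 ▸ hr2.2.2.1
  have hD : 0 ≤ Dv (u + 1) := rpow_nonneg (by linarith) _
  have hvalne : x.1.val ≠ 0 := by
    refine mul_ne_zero (fun h0 => ?_) hr1.2.2.2.2.1
    rw [List.prod_eq_zero_iff] at h0
    obtain ⟨p, hp, hp0⟩ := List.mem_map.1 h0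
    have := (hr1.2.2.2.1 p hp).1.two_le
    omega
  refine ⟨hAa, hAb, hau, ?_, ?_, ?_, ?_⟩
  · refine le_trans (exp_le_exp.2 ?_) (colWt_lower Y b hAb x.1.val hvalne)
    set δ : Fin R' → ℝ := fun t => log ((t : ℕ) + 2 : ℝ) - log ((t : ℕ) + 1 : ℝ) with hδ
    have hδ0 : ∀ t, 0 ≤ δ t := fun t => by
      have := log_le_log (show (0 : ℝ) < (t : ℕ) + 1 by positivity)
        (show ((t : ℕ) + 1 : ℝ) ≤ (t : ℕ) + 2 by linarith)
      simp only [hδ]; linarith
    have hδs : ∑ t, δ t ≤ (Kb u : ℝ) + 1 := by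
      simp only [hδ]
      rw [← Finset.sum_range (fun t : ℕ => log ((t : ℝ) + 2) - log ((t : ℝ) + 1)),
        log_diff_telescope]
      linarith [log_le_sub_one_of_pos (show (0 : ℝ) < (R' : ℝ) + 1 by positivity), hK.2]
    have hN : ∀ t : Fin R', δ t * (Nbt x.1.val Y (b t.succ : ℝ) : ℝ)
        ≤ δ t * ∑ i, min (a i : ℝ) (b t.succ : ℝ) + δ t * (((Kb u : ℝ) + 1) * Dv (u + 1)) := by
      intro t
      rw [← mul_add]
      refine mul_le_mul_of_nonneg_left ?_ (hδ0 t)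
      refine (nbt_val_le u Y _ x.1 hu hY (Nat.cast_nonneg _) hr1).trans (add_le_add ?_ ?_)
      · conv_lhs => rw [list_eq_ofFn h1, List.map_ofFn, List.sum_ofFn]
        refine Finset.sum_le_sum fun i _ => ?_
        simp only [Function.comp_apply]
        rw [min_comm (b t.succ : ℝ)]
        exact min_le_min (ha i ▸ Nat.le_ceil _) le_rfl
      · exact mul_le_mul_of_nonneg_right (by exact_mod_cast hr1.2.2.1) hD
    have hsum := Finset.sum_le_sum fun t (_ : t ∈ Finset.univ) => hN t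
    rw [Finset.sum_add_distrib, ← Finset.sum_mul] at hsum
    have h3 := mul_le_mul_of_nonneg_right hδs (mul_nonneg (by positivity : (0 : ℝ) ≤ (Kb u : ℝ) + 1) hD)
    simp only [Bd]
    simp only [hδ] at hsum h3
    nlinarith [hsum, h3]
  · have h0 : x.1.ps.headI = x.1.ps.getD 0 0 := by cases x.1.ps <;> rfl
    rw [h0] at hbig
    refine hbig.trans ?_
    have := ha 0
    simp only [Fin.val_zero] at this
    rw [this]; exact Nat.le_ceil _
  · have hp0 := hP 0
    obtain ⟨hpp, hN, hYp, hpu⟩ := hr1.2.2.2.1 _ hp0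
    obtain ⟨q, hq, hqd, hql⟩ := hN.2
    have hs : 0 ≤ sc (x.1.ps.getD ((0 : Fin (R + 1)) : ℕ) 0) := hY.trans hYp.le
    have hlog : log (sc (x.1.ps.getD ((0 : Fin (R + 1)) : ℕ) 0) + 2) ≤ log (u + 3) :=
      log_le_log (by linarith) (by linarith)
    have hc := Nat.ceil_lt_add_one hs
    rw [← ha 0] at hc
    have hqv : q ∣ x.2.val := by
      rw [← hval]
      exact hqd.trans (Dvd.dvd.mul_right (List.dvd_prod (List.mem_map.2 ⟨_, hp0, rfl⟩)) _)
    have hb0 : sc q ≤ max Y (b 0 : ℝ) := by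
      rcases hq.dvd_mul.1 hqv with h | h
      · obtain ⟨m, hm, hqm⟩ := hq.prime.dvd_prod_iff.1 h
        obtain ⟨p, hp, rfl⟩ := List.mem_map.1 hm
        obtain ⟨j, hj, rfl⟩ := List.getElem_of_mem hp
        have e : b ⟨j, h2 ▸ hj⟩ ≤ b 0 := hAb (Fin.zero_le _)
        have e2 : (x.2.ps.getD j 0) = x.2.ps[j] := List.getD_eq_getElem _ _ hj
        have e3 := hb ⟨j, h2 ▸ hj⟩
        simp only [e2] at e3
        have hp2 := (hr2.2.2.2.1 _ hp).1.two_le
        refine le_trans ?_ (le_max_right _ _)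
        calc sc q ≤ sc x.2.ps[j] :=
              sc_mono hq.two_le ((Nat.le_of_dvd (by omega) hqm).trans (Nat.sub_le _ _))
          _ ≤ (⌈sc x.2.ps[j]⌉₊ : ℕ) := Nat.le_ceil _
          _ ≤ (b 0 : ℝ) := by rw [← e3]; exact_mod_cast e
      · exact (hr2.2.2.2.2.2 q hq h).trans (le_max_left _ _)
    rcases max_cases Y (b 0 : ℝ) with ⟨e, -⟩ | ⟨e, -⟩ <;> rw [e] at hb0
    · linarith [Nat.cast_nonneg (α := ℝ) (b 0)]
    · linarith
  · have hcons : ∀ i : ℕ, x.1.ps.tail.getD i 0 = x.1.ps.getD (i + 1) 0 := fun i => by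
      cases x.1.ps <;> simp
    have hlen : x.1.ps.tail.length = R := by simp [h1]
    rw [EntS_eq hlen.le, Finset.sum_range] at hent
    simp only [EntF]
    have hterm : ∀ l : Fin R, alpha ((l : ℕ) + 1) * (a l.succ : ℝ)
        ≤ alpha ((l : ℕ) + 1) * lv x.1.ps.tail l + alpha ((l : ℕ) + 1) := fun l => by
      rw [← mul_add_one]
      refine mul_le_mul_of_nonneg_left ?_ (alpha_nonneg' _)
      rw [lv_of_lt (hlen ▸ l.isLt), hcons]
      have := ha l.succ
      simp only [Fin.val_succ] at this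
      rw [this]
      exact (Nat.ceil_lt_add_one (hsc _ (by simpa using hP l.succ))).le
    refine (Finset.sum_le_sum fun l _ => hterm l).trans ?_
    rw [Finset.sum_add_distrib, ← Finset.sum_range (fun t => alpha (t + 1)), alpha_telescope]
    have hl := log_le_sub_one_of_pos (show (0 : ℝ) < (R : ℝ) + 1 by positivity)
    have hR0 := Nat.cast_nonneg (α := ℝ) R
    nlinarith [hK.1]

lemma exp_bound {K D Y C c r r' l W B Sa Sb T : ℝ} (hK : 20 ≤ K) (hD : 0 ≤ D) (hY : 1 ≤ Y)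
    (hc0 : 0 ≤ c) (hc : c ≤ C) (hr0 : 0 ≤ r) (hr0' : 0 ≤ r') (hr : r ≤ K) (hr' : r' ≤ K)
    (hl0 : 0 ≤ l) (hl : l ≤ 3 * (K + 3)) (hW : W = r + r' + 4)
    (hB : B - Sb ≤ T + 4 * K + 4 + (K + 1) ^ 2 + (Y + 1 + 3 * K) + (K + 1) ^ 2 * D) :
    B + (-(Sa + Sb - (r + r' + 2) * l) + Sa + c * W ^ 2 * (Y + 1))
      ≤ T + (4 * C + 16) * (K + 3) ^ 3 * (Y + D + 1) := by
  have hK1 : (1 : ℝ) ≤ K + 3 := by linarith
  have hC : 0 ≤ C := hc0.trans hc
  have e1 : c * W ^ 2 * (Y + 1) ≤ C * (2 * (K + 3)) ^ 2 * (Y + 1) := by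
    subst hW; gcongr; linarith
  have e2 : (r + r' + 2) * l ≤ (2 * (K + 3)) * (3 * (K + 3)) :=
    mul_le_mul (by linarith) hl hl0 (by positivity)
  have k2 : (K + 3) ^ 2 ≤ (K + 3) ^ 3 := pow_le_pow_right₀ hK1 (by norm_num)
  have k1 : (K + 1) ^ 2 ≤ (K + 3) ^ 3 := le_trans (pow_le_pow_left₀ (by linarith) (by linarith) 2) k2
  have k0 : K + 3 ≤ (K + 3) ^ 3 := le_self_pow₀ hK1 (by norm_num)
  have m1 := mul_le_mul_of_nonneg_left k1 hD
  have m2 := mul_le_mul_of_nonneg_left k2 (show (0 : ℝ) ≤ 4 * C * (Y + 1) by positivity)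
  have m3 : (0 : ℝ) ≤ (K + 3) ^ 3 * D * (4 * C + 15) := by positivity
  have m4 : Y ≤ (K + 3) ^ 3 * Y := le_mul_of_one_le_left (by linarith) (one_le_pow₀ hK1)
  have m5 : (0 : ℝ) ≤ (K + 3) ^ 3 * (Y - 1) := mul_nonneg (by positivity) (by linarith)
  nlinarith

/-- Pairs with given levels. -/
theorem class_bound : ∃ C : ℕ, ∀ u Y : ℝ, 100 ≤ u → 1 ≤ Y → Y ≤ u → ∀ la lb : List ℕ,
    ∀ F : Finset (Rep × Rep),
      (∀ x ∈ F, RedPair u Y x ∧ levs x.1.ps = la ∧ levs x.2.ps = lb) →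
      ∑ x ∈ F, (1 : ℝ) / x.1.val
          ≤ exp (-Del u / 4 + (C : ℝ) * ((Kb u : ℝ) + 3) ^ 3 * (Y + Dv (u + 1) + 1)) ∧
        ∀ X : ℝ, 0 ≤ X → (∀ x ∈ F, (x.1.val : ℝ) ≤ X) → (F.card : ℝ)
          ≤ X * exp (-u - Del u / 4 + (C : ℝ) * ((Kb u : ℝ) + 3) ^ 3 * (Y + Dv (u + 1) + 1)) := by
  obtain ⟨C1, h1⟩ := peel_sum
  obtain ⟨C2, h2⟩ := peel_count
  refine ⟨24 * max C1 C2 + 64, fun u Y hu hY hYu la lb F hF => ?_⟩
  rcases F.eq_empty_or_nonempty with rfl | ⟨x₀, hx₀⟩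
  · exact ⟨by simp [exp_nonneg], fun X hX _ => by simp only [Finset.card_empty, Nat.cast_zero]; positivity⟩
  obtain ⟨hr0, hla, hlb⟩ := hF x₀ hx₀
  obtain ⟨R, hR⟩ := Nat.exists_eq_succ_of_ne_zero
    (fun h => hr0.1.1.1 (List.length_eq_zero_iff.1 h) : x₀.1.ps.length ≠ 0)
  obtain ⟨R', hR'⟩ := Nat.exists_eq_succ_of_ne_zero
    (fun h => hr0.1.2.1.1 (List.length_eq_zero_iff.1 h) : x₀.2.ps.length ≠ 0)
  set a : Fin (R + 1) → ℕ := fun i => ⌈sc (x₀.1.ps.getD i 0)⌉₊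
  set b : Fin (R' + 1) → ℕ := fun j => ⌈sc (x₀.2.ps.getD j 0)⌉₊
  have hkey : ∀ x ∈ F, x.1.ps.length = R + 1 ∧ x.2.ps.length = R' + 1 ∧
      (∀ i, a i = ⌈sc (x.1.ps.getD i 0)⌉₊) ∧ ∀ j, b j = ⌈sc (x.2.ps.getD j 0)⌉₊ := by
    intro x hx
    obtain ⟨-, e1, e2⟩ := hF x hx
    have e1' : levs x₀.1.ps = levs x.1.ps := hla.trans e1.symm
    have e2' : levs x₀.2.ps = levs x.2.ps := hlb.trans e2.symm
    have l1 : x.1.ps.length = R + 1 := by
      have := congrArg List.length e1'; simp only [levs, List.length_map] at this; omega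
    have l2 : x.2.ps.length = R' + 1 := by
      have := congrArg List.length e2'; simp only [levs, List.length_map] at this; omega
    refine ⟨l1, l2, fun i => ?_, fun j => ?_⟩
    · have := congrArg (fun l : List ℕ => l.getD i 0) e1'
      rwa [levs_getD _ (by omega), levs_getD _ (by omega)] at this
    · have := congrArg (fun l : List ℕ => l.getD j 0) e2'
      rwa [levs_getD _ (by omega), levs_getD _ (by omega)] at this
  choose! d hd using fun x (hx : x ∈ F) => pair_matrix (u := u) (Y := Y) (by linarith) (hF x hx).1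
    (hkey x hx).1 (hkey x hx).2.1 a b (hkey x hx).2.2.1 (hkey x hx).2.2.2
  have hinj : Set.InjOn d (F : Set (Rep × Rep)) := fun x hx y hy e => by
    obtain ⟨-, -, x1, x2⟩ := hd x hx
    obtain ⟨-, -, y1, y2⟩ := hd y hy
    rw [e] at x1 x2
    exact Prod.ext (x1.trans y1.symm) (x2.trans y2.symm)
  obtain ⟨hAa, hAb, hau, -, ha0, hab, hEnt⟩ := pair_bounds (by linarith) (by linarith) hr0
    hR hR' a b (hkey x₀ hx₀).2.2.1 (hkey x₀ hx₀).2.2.2
  have hcap : ∀ c, cellCap Y a b c ≤ u + 2 := by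
    rintro ⟨_ | i, _ | j⟩ <;> simp only [cellCap]
    any_goals linarith
    exact max_le (by linarith) ((min_le_left _ _).trans (hau i))
  have hw : ∀ x ∈ F, (1 : ℝ) ≤ exp (Bd u a b) * ∏ c, wt (colWt Y b) (d x c) := fun x hx => by
    obtain ⟨-, -, -, hwx, -⟩ := pair_bounds (by linarith) (by linarith) (hF x hx).1
      (hkey x hx).1 (hkey x hx).2.1 a b (hkey x hx).2.2.1 (hkey x hx).2.2.2
    have hne : ∀ c ∈ Finset.univ, d x c ≠ 0 := fun c _ => ((hd x hx).1.1 c).1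
    rw [← wt_prod _ _ _ hne, (hd x hx).2.1]
    calc (1 : ℝ) = exp (Bd u a b) * exp (-Bd u a b) := by rw [← exp_add, add_neg_cancel, exp_zero]
      _ ≤ _ := mul_le_mul_of_nonneg_left hwx (exp_nonneg _)
  -- the common exponent
  set C := max C1 C2 with hC
  set K : ℝ := (Kb u : ℝ) with hK
  set D : ℝ := Dv (u + 1)
  set n : ℕ := (Finset.univ : Finset (Fin (R + 1))).card + (Finset.univ : Finset (Fin (R' + 1))).card
    with hn
  have hn' : n = R + R' + 2 := by simp [hn]; ring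
  have hRK : (R : ℝ) ≤ K := by
    have := hR ▸ hr0.1.1.2.2.1
    have : R ≤ Kb u := by omega
    exact Nat.cast_le.2 this
  have hR'K : (R' : ℝ) ≤ K := by
    have := hR' ▸ hr0.1.2.1.2.2.1
    have : R' ≤ Kb u := by omega
    exact Nat.cast_le.2 this
  have hlogK : log (u + 4) ≤ K := by
    have h2 : log (u + 4) ≤ log (u + 2) + log (u + 2) := by
      rw [← log_mul (by linarith) (by linarith)]
      exact log_le_log (by linarith) (by nlinarith)
    have h3 : 20 * log (u + 2) ≤ K := by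
      rw [hK, Kb]; push_cast; linarith [Nat.le_ceil (20 * log (u + 2))]
    have h4 : 0 ≤ log (u + 2) := log_nonneg (by linarith)
    linarith
  have hK20 : (20 : ℝ) ≤ K := by rw [hK]; exact_mod_cast Kb_ge u
  have hD0 : 0 ≤ D := rpow_nonneg (by linarith) _
  have hl3 : log (u + 3) ≤ K := (log_le_log (by linarith) (by linarith)).trans hlogK
  have hl2 : log (u + 2) ≤ K := (log_le_log (by linarith) (by linarith)).trans hlogK
  have hlo : loSum (loOf u a) (loOf u b) Finset.univ Finset.univ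
      = ∑ i, (a i : ℝ) + ∑ j, (b j : ℝ) - ((R : ℝ) + R' + 2) * (1 + 3 * log (u + 3)) := by
    simp only [loSum, loOf, Finset.sum_sub_distrib, Finset.sum_const, Finset.card_univ,
      Fintype.card_fin, nsmul_eq_mul]
    push_cast; ring
  have hgb := gibbs_levels R R' a b hAa hAb
  have hmax : max ((a 0 : ℝ) - b 0) 0 ≤ Y + 1 + 3 * log (u + 3) :=
    max_le hab (by have := log_nonneg (show (1 : ℝ) ≤ u + 3 by linarith); linarith)
  set P : ℕ → ℝ := fun c => (((R + 1 : ℕ) : ℝ) + (R' + 1 : ℕ) + 2) ^ 2 * c * (u + 4) ^ c with hP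
  have hPb : ∀ c : ℕ, 1 ≤ c → c ≤ C → P c ^ n ≤ exp ((4 + 2 * (C : ℝ)) * 2 * (K + 3) ^ 2) := by
    intro c hc hcC
    have hW0 : (0 : ℝ) < ((R + 1 : ℕ) : ℝ) + (R' + 1 : ℕ) + 2 := by positivity
    have hc0 : (0 : ℝ) < (c : ℝ) := by exact_mod_cast hc
    have hcC' : (c : ℝ) ≤ C := by exact_mod_cast hcC
    have hpos : 0 < P c := by simp only [hP]; positivity
    rw [← exp_log (pow_pos hpos n), exp_le_exp, log_pow]
    have hlP : log (P c) ≤ (4 + 2 * (C : ℝ)) * (K + 3) := by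
      simp only [hP]
      rw [log_mul (by positivity) (by positivity), log_mul (by positivity) (by positivity),
        log_pow, log_pow]
      have e1 := log_le_sub_one_of_pos hW0
      have e2 := log_le_sub_one_of_pos hc0
      have e3 : (c : ℝ) * log (u + 4) ≤ C * K :=
        mul_le_mul hcC' hlogK (log_nonneg (by linarith)) (Nat.cast_nonneg _)
      push_cast at e1 ⊢
      nlinarith
    calc (n : ℝ) * log (P c) ≤ (n : ℝ) * ((4 + 2 * (C : ℝ)) * (K + 3)) :=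
          mul_le_mul_of_nonneg_left hlP (Nat.cast_nonneg _)
      _ ≤ (2 * (K + 3)) * ((4 + 2 * (C : ℝ)) * (K + 3)) := by
          refine mul_le_mul_of_nonneg_right ?_ (by positivity)
          rw [hn']; push_cast; linarith
      _ = _ := by ring
  have hexp : ∀ c : ℕ, c ≤ C →
      Bd u a b + (-loSum (loOf u a) (loOf u b) Finset.univ Finset.univ + (∑ i, (a i : ℝ))
        + (c : ℝ) * (((R + 1 : ℕ) : ℝ) + (R' + 1 : ℕ) + 2) ^ 2 * (Y + 1))
      ≤ -Del u / 4 + (4 * (C : ℝ) + 16) * (K + 3) ^ 3 * (Y + D + 1) := by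
    intro c hcC
    rw [hlo]
    have hB : Bd u a b - ∑ j, (b j : ℝ) ≤ -Del u / 4 + 4 * K + 4 + (K + 1) ^ 2
        + (Y + 1 + 3 * K) + (K + 1) ^ 2 * D := by
      simp only [Bd]
      linarith
    have h3 : 1 + 3 * log (u + 3) ≤ 3 * (K + 3) := by linarith
    have h30 : 0 ≤ log (u + 3) := log_nonneg (by linarith)
    exact exp_bound hK20 hD0 hY (Nat.cast_nonneg _) (by exact_mod_cast hcC) (Nat.cast_nonneg R)
      (Nat.cast_nonneg R') hRK hR'K (by linarith) h3 (by push_cast; linarith) hB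
  have hfin : (4 + 2 * (C : ℝ)) * 2 * (K + 3) ^ 2 + (4 * (C : ℝ) + 16) * (K + 3) ^ 3 * (Y + D + 1)
      + 16 * (K + 3) ≤ ((24 * C + 64 : ℕ) : ℝ) * (K + 3) ^ 3 * (Y + D + 1) := by
    have k2 : (K + 3) ^ 2 ≤ (K + 3) ^ 3 := pow_le_pow_right₀ (by linarith) (by norm_num)
    have k2' : K + 3 ≤ (K + 3) ^ 3 := le_self_pow₀ (by linarith) (by norm_num)
    have k3 : (K + 3) ^ 3 ≤ (K + 3) ^ 3 * (Y + D + 1) :=
      le_mul_of_one_le_right (by positivity) (by linarith)
    have m1 := mul_le_mul_of_nonneg_left (k2.trans k3)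
      (show (0 : ℝ) ≤ (4 + 2 * (C : ℝ)) * 2 by positivity)
    have m2 : (0 : ℝ) ≤ (K + 3) ^ 3 * (Y + D + 1) * (16 * (C : ℝ) + 24) := by positivity
    push_cast
    nlinarith
  have hP1 : ∀ c : ℕ, c ≤ C → 0 ≤ P c := fun c _ => by simp only [hP]; positivity
  have hpn : ∀ c : ℕ, c ≤ C → P c ^ n ≤ exp ((4 + 2 * (C : ℝ)) * 2 * (K + 3) ^ 2) := by
    intro c hcC
    rcases Nat.eq_zero_or_pos c with rfl | hc
    · have : n ≠ 0 := by omega
      simp only [hP, Nat.cast_zero, mul_zero, zero_mul, zero_pow this]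
      exact exp_nonneg _
    · exact hPb c hc hcC
  constructor
  · have hsum := h1 (R + 1) (R' + 1) u Y a b (loOf u a) (loOf u b) (by linarith) hY hcap
      Finset.univ Finset.univ (F.image d) (fun e he => by
        obtain ⟨x, hx, rfl⟩ := Finset.mem_image.1 he; exact (hd x hx).1)
    rw [Finset.sum_image hinj] at hsum
    calc ∑ x ∈ F, (1 : ℝ) / x.1.val
        ≤ ∑ x ∈ F, exp (Bd u a b) * cellsW Y b (d x) := by
          refine Finset.sum_le_sum fun x hx => ?_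
          have hv : ((∏ c, d x c : ℕ) : ℝ) = (x.1.val : ℝ) := by rw [(hd x hx).2.1]
          rw [cellsW, Finset.prod_div_distrib, ← Nat.cast_prod, hv, ← mul_div_assoc]
          exact div_le_div_of_nonneg_right (hw x hx) (Nat.cast_nonneg _)
      _ = exp (Bd u a b) * ∑ x ∈ F, cellsW Y b (d x) := (Finset.mul_sum _ _ _).symm
      _ ≤ exp (Bd u a b) * (P C1 ^ n * exp (-loSum (loOf u a) (loOf u b) Finset.univ Finset.univ
            + (∑ i, (a i : ℝ)) + (C1 : ℝ) * (((R + 1 : ℕ) : ℝ) + (R' + 1 : ℕ) + 2) ^ 2 * (Y + 1))) :=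
          mul_le_mul_of_nonneg_left hsum (exp_nonneg _)
      _ ≤ exp ((4 + 2 * (C : ℝ)) * 2 * (K + 3) ^ 2) *
            exp (-Del u / 4 + (4 * (C : ℝ) + 16) * (K + 3) ^ 3 * (Y + D + 1)) := by
          rw [mul_left_comm, ← exp_add]
          exact mul_le_mul (hpn C1 (le_max_left _ _)) (exp_le_exp.2 (hexp C1 (le_max_left _ _)))
            (exp_nonneg _) (exp_nonneg _)
      _ ≤ _ := by
          rw [← exp_add, exp_le_exp]
          linarith
  · intro X hX hval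
    have hsum := h2 (R + 1) (R' + 1) u Y a b (loOf u a) (loOf u b) (by linarith) hY hcap
      Finset.univ Finset.univ 0 (Finset.mem_univ _) X hX (F.image d) (fun e he => by
        obtain ⟨x, hx, rfl⟩ := Finset.mem_image.1 he
        exact ⟨(hd x hx).1, by rw [(hd x hx).2.1]; exact hval x hx⟩)
    rw [Finset.sum_image hinj] at hsum
    calc (F.card : ℝ) = ∑ _x ∈ F, (1 : ℝ) := by simp
      _ ≤ ∑ x ∈ F, exp (Bd u a b) * ∏ c, wt (colWt Y b) (d x c) := Finset.sum_le_sum hw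
      _ = exp (Bd u a b) * ∑ x ∈ F, ∏ c, wt (colWt Y b) (d x c) := (Finset.mul_sum _ _ _).symm
      _ ≤ exp (Bd u a b) * (X * P C2 ^ n * exp (-loOf u a 0
            - loSum (loOf u a) (loOf u b) Finset.univ Finset.univ
            + (∑ i, (a i : ℝ)) + (C2 : ℝ) * (((R + 1 : ℕ) : ℝ) + (R' + 1 : ℕ) + 2) ^ 2 * (Y + 1))) :=
          mul_le_mul_of_nonneg_left hsum (exp_nonneg _)
      _ ≤ X * (exp ((4 + 2 * (C : ℝ)) * 2 * (K + 3) ^ 2) * exp (-u + 16 * (K + 3)
            + (-Del u / 4 + (4 * (C : ℝ) + 16) * (K + 3) ^ 3 * (Y + D + 1)))) := by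
          rw [mul_assoc X, mul_left_comm]
          refine mul_le_mul_of_nonneg_left ?_ hX
          rw [mul_left_comm, ← exp_add]
          refine mul_le_mul (hpn C2 (le_max_right _ _)) (exp_le_exp.2 ?_)
            (exp_nonneg _) (exp_nonneg _)
          have := hexp C2 (le_max_right _ _)
          simp only [loOf] at this ⊢
          linarith
      _ ≤ _ := by
          refine mul_le_mul_of_nonneg_left ?_ hX
          rw [← exp_add, exp_le_exp]
          linarith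

end Vale.Agent.P031
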