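import Vale.Agent.P031.Collide.TSum
import Vale.Agent.P031.Collide.CellWeights
import Vale.Agent.P031.BadMass

/-!
# Totient values: peeling the largest prime of a matrix of factorisations
-/

open Finset Real
open scoped Classical

noncomputable section

namespace Vale.Agent.P031

variable {R R' : ℕ}

/-- Row product. -/
def rowP (d : Option (Fin R) × Option (Fin R') → ℕ) (i : Fin R) : ℕ := ∏ j, d (some i, j)

/-- Column product. -/
def colP (d : Option (Fin R) × Option (Fin R') → ℕ) (j : Fin R') : ℕ := ∏ i, d (i, some j)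

/-- A line is usable: one more than it is prime, it is not huge, and it has a large prime. -/
def LineOK (u lo : ℝ) (m : ℕ) : Prop :=
  (m + 1).Prime ∧ log (m : ℝ) ≤ exp (u + 3) ∧ ∃ q : ℕ, q.Prime ∧ q ∣ m ∧ lo ≤ sc q

/-- The active lines are usable and the cells respect their caps. -/
def PeelCond (u Y : ℝ) (a : Fin R → ℕ) (b : Fin R' → ℕ) (lo : Fin R → ℝ) (lo' : Fin R' → ℝ)
    (A : Finset (Fin R)) (B : Finset (Fin R'))
    (d : Option (Fin R) × Option (Fin R') → ℕ) : Prop :=
  (∀ c, Smooth (cellCap Y a b c) (d c)) ∧ (∀ i ∈ A, LineOK u (lo i) (rowP d i)) ∧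
    (∀ j ∈ B, LineOK u (lo' j) (colP d j)) ∧ ∀ i ∈ A, ∀ j ∈ B, rowP d i ≠ colP d j

/-- The weight of a matrix. -/
def cellsW (Y : ℝ) (b : Fin R' → ℕ) (d : Option (Fin R) × Option (Fin R') → ℕ) : ℝ :=
  ∏ c, wt (colWt Y b) (d c) / (d c : ℝ)

lemma colWt_range (Y : ℝ) (b : Fin R' → ℕ) (q : ℕ) : 0 ≤ colWt Y b q ∧ colWt Y b q ≤ 1 := by
  unfold colWt
  split
  · exact ⟨zero_le_one, le_rfl⟩
  · refine ⟨by positivity, ?_⟩
    rw [div_le_one (by positivity)]
    exact le_max_left _ _

lemma cellsW_nonneg (Y : ℝ) (b : Fin R' → ℕ) (d : Option (Fin R) × Option (Fin R') → ℕ) :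
    0 ≤ cellsW Y b d :=
  Finset.prod_nonneg fun c _ =>
    div_nonneg (wt_nonneg fun q _ => (colWt_range Y b q).1) (Nat.cast_nonneg _)

lemma LineOK.ne_zero {u lo : ℝ} {m : ℕ} (h : LineOK u lo m) : m ≠ 0 := by
  rintro rfl
  exact Nat.not_prime_one (by simpa using h.1)

lemma prod_update_mul {ι : Type*} [Fintype ι] [DecidableEq ι] (f : ι → ℕ) (c : ι) (t x : ℕ)
    (h : f c = t * x) : ∏ i, f i = t * ∏ i, Function.update f c x i := by
  rw [← Finset.mul_prod_erase _ _ (Finset.mem_univ c),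
    ← Finset.mul_prod_erase _ _ (Finset.mem_univ c), Function.update_self, h, mul_assoc]
  congr 2
  exact Finset.prod_congr rfl fun i hi => by
    rw [Function.update_of_ne (Finset.ne_of_mem_erase hi)]

/-- Active rows through a cell. -/
def rowsAt (A : Finset (Fin R)) (c : Option (Fin R) × Option (Fin R')) : Finset (Fin R) :=
  A.filter fun i => c.1 = some i

/-- Active columns through a cell. -/
def colsAt (B : Finset (Fin R')) (c : Option (Fin R) × Option (Fin R')) : Finset (Fin R') :=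
  B.filter fun j => c.2 = some j

/-- The forms created at a cell. -/
def formsAt (A : Finset (Fin R)) (B : Finset (Fin R')) (c : Option (Fin R) × Option (Fin R'))
    (d : Option (Fin R) × Option (Fin R') → ℕ) : Finset ℕ :=
  (rowsAt A c).image (rowP d) ∪ (colsAt B c).image (colP d)

lemma rowsAt_card (A : Finset (Fin R)) (c : Option (Fin R) × Option (Fin R')) :
    (rowsAt A c).card ≤ 1 := by
  refine Finset.card_le_one.2 fun x hx y hy => ?_
  have h1 := (Finset.mem_filter.1 hx).2
  have h2 := (Finset.mem_filter.1 hy).2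
  rw [h1] at h2
  exact Option.some.inj h2

lemma colsAt_card (B : Finset (Fin R')) (c : Option (Fin R) × Option (Fin R')) :
    (colsAt B c).card ≤ 1 := by
  refine Finset.card_le_one.2 fun x hx y hy => ?_
  have h1 := (Finset.mem_filter.1 hx).2
  have h2 := (Finset.mem_filter.1 hy).2
  rw [h1] at h2
  exact Option.some.inj h2

lemma rowP_update {d : Option (Fin R) × Option (Fin R') → ℕ}
    {c : Option (Fin R) × Option (Fin R')} {t x : ℕ} (h : d c = t * x) (i : Fin R) :
    rowP d i = (if c.1 = some i then t else 1) * rowP (Function.update d c x) i := by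
  unfold rowP
  obtain ⟨c1, c2⟩ := c
  by_cases hc : c1 = some i
  · subst hc
    rw [if_pos rfl, prod_update_mul (fun j => d (some i, j)) c2 t x h]
    congr 1
    refine Finset.prod_congr rfl fun j _ => ?_
    by_cases hj : j = c2
    · subst hj; simp
    · rw [Function.update_of_ne hj, Function.update_of_ne]
      simp [hj]
  · rw [if_neg hc, one_mul]
    refine Finset.prod_congr rfl fun j _ => ?_
    rw [Function.update_of_ne]
    intro e
    exact hc (congrArg Prod.fst e).symm

lemma colP_update {d : Option (Fin R) × Option (Fin R') → ℕ}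
    {c : Option (Fin R) × Option (Fin R')} {t x : ℕ} (h : d c = t * x) (j : Fin R') :
    colP d j = (if c.2 = some j then t else 1) * colP (Function.update d c x) j := by
  unfold colP
  obtain ⟨c1, c2⟩ := c
  by_cases hc : c2 = some j
  · subst hc
    rw [if_pos rfl, prod_update_mul (fun i => d (i, some j)) c1 t x h]
    congr 1
    refine Finset.prod_congr rfl fun i _ => ?_
    by_cases hi : i = c1
    · subst hi; simp
    · rw [Function.update_of_ne hi, Function.update_of_ne]
      simp [hi]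
  · rw [if_neg hc, one_mul]
    refine Finset.prod_congr rfl fun i _ => ?_
    rw [Function.update_of_ne]
    intro e
    exact hc (congrArg Prod.snd e).symm

lemma cellsW_update (Y : ℝ) (b : Fin R' → ℕ) {d : Option (Fin R) × Option (Fin R') → ℕ}
    {c : Option (Fin R) × Option (Fin R')} {t x : ℕ} (h : d c = t * x) (ht : t.Prime)
    (hx : x ≠ 0) :
    cellsW Y b d ≤ (1 / (t : ℝ)) * cellsW Y b (Function.update d c x) := by
  unfold cellsW
  rw [← Finset.mul_prod_erase _ _ (Finset.mem_univ c),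
    ← Finset.mul_prod_erase _ _ (Finset.mem_univ c), Function.update_self]
  have e : ∏ e ∈ Finset.univ.erase c, wt (colWt Y b) (Function.update d c x e) /
      (Function.update d c x e : ℝ) = ∏ e ∈ Finset.univ.erase c, wt (colWt Y b) (d e) / (d e : ℝ) :=
    Finset.prod_congr rfl fun e he => by rw [Function.update_of_ne (Finset.ne_of_mem_erase he)]
  rw [e, ← mul_assoc]
  refine mul_le_mul_of_nonneg_right ?_ (Finset.prod_nonneg fun e _ =>
    div_nonneg (wt_nonneg fun q _ => (colWt_range Y b q).1) (Nat.cast_nonneg _))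
  rw [h, wt_mul _ ht.ne_zero hx, wt_prime _ ht, Nat.cast_mul, mul_div_mul_comm]
  refine mul_le_mul_of_nonneg_right ?_
    (div_nonneg (wt_nonneg fun q _ => (colWt_range Y b q).1) (Nat.cast_nonneg _))
  exact div_le_div_of_nonneg_right (colWt_range Y b t).2 (Nat.cast_nonneg _)

/-- Remove the largest prime of the active lines. -/
theorem peel_data {u Y : ℝ} {a : Fin R → ℕ} {b : Fin R' → ℕ} {lo : Fin R → ℝ} {lo' : Fin R' → ℝ}
    {A : Finset (Fin R)} {B : Finset (Fin R')} {d : Option (Fin R) × Option (Fin R') → ℕ}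
    (hcap : ∀ c, cellCap Y a b c ≤ u + 2) (hd : PeelCond u Y a b lo lo' A B d)
    (hne : A.Nonempty ∨ B.Nonempty) :
    ∃ (c : Option (Fin R) × Option (Fin R')) (t x : ℕ), t.Prime ∧ x ≠ 0 ∧ d c = t * x ∧
      PeelCond u Y a b lo lo' (A \ rowsAt A c) (B \ colsAt B c) (Function.update d c x) ∧
      (∀ i ∈ A, lo i ≤ sc t) ∧ (∀ j ∈ B, lo' j ≤ sc t) ∧
      1 ≤ (rowsAt A c).card + (colsAt B c).card ∧
      (formsAt A B c (Function.update d c x)).card = (rowsAt A c).card + (colsAt B c).card ∧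
      (∀ F ∈ formsAt A B c (Function.update d c x), 1 ≤ F ∧ log (F : ℝ) ≤ exp (u + 3)) ∧
      sc t ≤ u + 2 ∧ (∀ F ∈ formsAt A B c (Function.update d c x), (F * t + 1).Prime) := by
  obtain ⟨hsm, hA, hB, hdis⟩ := hd
  set P : Finset ℕ := A.biUnion (fun i => (rowP d i).primeFactors)
    ∪ B.biUnion (fun j => (colP d j).primeFactors) with hP
  have hPne : P.Nonempty := by
    rcases hne with ⟨i, hi⟩ | ⟨j, hj⟩
    · obtain ⟨-, -, q, hq, hqd, -⟩ := hA i hi
      exact ⟨q, Finset.mem_union_left _ (Finset.mem_biUnion.2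
        ⟨i, hi, Nat.mem_primeFactors.2 ⟨hq, hqd, (hA i hi).ne_zero⟩⟩)⟩
    · obtain ⟨-, -, q, hq, hqd, -⟩ := hB j hj
      exact ⟨q, Finset.mem_union_right _ (Finset.mem_biUnion.2
        ⟨j, hj, Nat.mem_primeFactors.2 ⟨hq, hqd, (hB j hj).ne_zero⟩⟩)⟩
  set t := P.max' hPne with htdef
  have htP : t ∈ P := P.max'_mem hPne
  have hloA : ∀ i ∈ A, lo i ≤ sc t := fun i hi => by
    obtain ⟨-, -, q, hq, hqd, hlo⟩ := hA i hi
    exact hlo.trans (sc_mono hq.two_le (P.le_max' q (Finset.mem_union_left _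
      (Finset.mem_biUnion.2 ⟨i, hi, Nat.mem_primeFactors.2 ⟨hq, hqd, (hA i hi).ne_zero⟩⟩))))
  have hloB : ∀ j ∈ B, lo' j ≤ sc t := fun j hj => by
    obtain ⟨-, -, q, hq, hqd, hlo⟩ := hB j hj
    exact hlo.trans (sc_mono hq.two_le (P.le_max' q (Finset.mem_union_right _
      (Finset.mem_biUnion.2 ⟨j, hj, Nat.mem_primeFactors.2 ⟨hq, hqd, (hB j hj).ne_zero⟩⟩))))
  obtain ⟨c, hc, htc, htp⟩ : ∃ c, 1 ≤ (rowsAt A c).card + (colsAt B c).card ∧ t ∣ d c ∧
      t.Prime := by
    rcases Finset.mem_union.1 htP with h | h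
    · obtain ⟨i, hi, ht⟩ := Finset.mem_biUnion.1 h
      obtain ⟨hp, hdvd, -⟩ := Nat.mem_primeFactors.1 ht
      obtain ⟨j, -, hj⟩ := (Prime.dvd_finset_prod_iff hp.prime _).1 hdvd
      refine ⟨(some i, j), ?_, hj, hp⟩
      have : 0 < (rowsAt A ((some i : Option (Fin R)), j)).card :=
        Finset.card_pos.2 ⟨i, Finset.mem_filter.2 ⟨hi, rfl⟩⟩
      omega
    · obtain ⟨j, hj, ht⟩ := Finset.mem_biUnion.1 h
      obtain ⟨hp, hdvd, -⟩ := Nat.mem_primeFactors.1 ht
      obtain ⟨i, -, hi⟩ := (Prime.dvd_finset_prod_iff hp.prime _).1 hdvd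
      refine ⟨(i, some j), ?_, hi, hp⟩
      have : 0 < (colsAt B (i, (some j : Option (Fin R')))).card :=
        Finset.card_pos.2 ⟨j, Finset.mem_filter.2 ⟨hj, rfl⟩⟩
      omega
  obtain ⟨x, hx⟩ := htc
  have hx0 : x ≠ 0 := fun h0 => (hsm c).1 (by rw [hx, h0, mul_zero])
  set d' := Function.update d c x with hd'
  have hrow : ∀ i ∈ rowsAt A c, rowP d i = t * rowP d' i := fun i hi => by
    rw [rowP_update hx i, if_pos (Finset.mem_filter.1 hi).2]
  have hcol : ∀ j ∈ colsAt B c, colP d j = t * colP d' j := fun j hj => by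
    rw [colP_update hx j, if_pos (Finset.mem_filter.1 hj).2]
  have hrow' : ∀ i ∈ A \ rowsAt A c, rowP d i = rowP d' i := fun i hi => by
    obtain ⟨hi1, hi2⟩ := Finset.mem_sdiff.1 hi
    rw [rowP_update hx i, if_neg (fun h => hi2 (Finset.mem_filter.2 ⟨hi1, h⟩)), one_mul]
  have hcol' : ∀ j ∈ B \ colsAt B c, colP d j = colP d' j := fun j hj => by
    obtain ⟨hj1, hj2⟩ := Finset.mem_sdiff.1 hj
    rw [colP_update hx j, if_neg (fun h => hj2 (Finset.mem_filter.2 ⟨hj1, h⟩)), one_mul]
  refine ⟨c, t, x, htp, hx0, hx, ⟨?_, ?_, ?_, ?_⟩, hloA, hloB, hc, ?_, ?_, ?_, ?_⟩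
  · intro e
    by_cases he : e = c
    · subst he; rw [Function.update_self]; exact (hsm _).of_dvd ⟨t, by rw [hx, mul_comm]⟩
    · rw [Function.update_of_ne he]; exact hsm e
  · exact fun i hi => hrow' i hi ▸ hA i (Finset.mem_sdiff.1 hi).1
  · exact fun j hj => hcol' j hj ▸ hB j (Finset.mem_sdiff.1 hj).1
  · intro i hi j hj
    rw [← hrow' i hi, ← hcol' j hj]
    exact hdis i (Finset.mem_sdiff.1 hi).1 j (Finset.mem_sdiff.1 hj).1
  · have h1 : ((rowsAt A c).image (rowP d')).card = (rowsAt A c).card :=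
      Finset.card_image_of_injOn fun x hx y hy _ => Finset.card_le_one.1 (rowsAt_card A c) x hx y hy
    have h2 : ((colsAt B c).image (colP d')).card = (colsAt B c).card :=
      Finset.card_image_of_injOn fun x hx y hy _ => Finset.card_le_one.1 (colsAt_card B c) x hx y hy
    rw [formsAt, Finset.card_union_of_disjoint, h1, h2]
    rw [Finset.disjoint_left]
    intro F hF hF'
    obtain ⟨i, hi, rfl⟩ := Finset.mem_image.1 hF
    obtain ⟨j, hj, e⟩ := Finset.mem_image.1 hF'
    exact hdis i (Finset.mem_filter.1 hi).1 j (Finset.mem_filter.1 hj).1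
      (by rw [hrow i hi, hcol j hj, e])
  · intro F hF
    rcases Finset.mem_union.1 hF with h | h
    · obtain ⟨i, hi, rfl⟩ := Finset.mem_image.1 h
      obtain ⟨h1, h2, -⟩ := hA i (Finset.mem_filter.1 hi).1
      have h0 := (hA i (Finset.mem_filter.1 hi).1).ne_zero
      rw [hrow i hi] at h2 h0
      have hpos : 0 < rowP d' i := Nat.pos_of_ne_zero (fun e => h0 (by rw [e, mul_zero]))
      refine ⟨hpos, le_trans (log_le_log (by exact_mod_cast hpos) ?_) h2⟩
      exact_mod_cast Nat.le_mul_of_pos_left _ htp.pos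
    · obtain ⟨j, hj, rfl⟩ := Finset.mem_image.1 h
      obtain ⟨h1, h2, -⟩ := hB j (Finset.mem_filter.1 hj).1
      have h0 := (hB j (Finset.mem_filter.1 hj).1).ne_zero
      rw [hcol j hj] at h2 h0
      have hpos : 0 < colP d' j := Nat.pos_of_ne_zero (fun e => h0 (by rw [e, mul_zero]))
      refine ⟨hpos, le_trans (log_le_log (by exact_mod_cast hpos) ?_) h2⟩
      exact_mod_cast Nat.le_mul_of_pos_left _ htp.pos
  · exact ((hsm c).2 t htp ⟨x, hx⟩).trans (hcap c)
  · intro F hF
    rcases Finset.mem_union.1 hF with h | h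
    · obtain ⟨i, hi, rfl⟩ := Finset.mem_image.1 h
      rw [mul_comm, ← hrow i hi]
      exact (hA i (Finset.mem_filter.1 hi).1).1
    · obtain ⟨j, hj, rfl⟩ := Finset.mem_image.1 h
      rw [mul_comm, ← hcol j hj]
      exact (hB j (Finset.mem_filter.1 hj).1).1

/-- Total lower scale of a set of active lines. -/
def loSum (lo : Fin R → ℝ) (lo' : Fin R' → ℝ) (A : Finset (Fin R)) (B : Finset (Fin R')) : ℝ :=
  ∑ i ∈ A, lo i + ∑ j ∈ B, lo' j

/-- Largest lower scale of the active lines. -/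
def loMax (lo : Fin R → ℝ) (lo' : Fin R' → ℝ) (A : Finset (Fin R)) (B : Finset (Fin R')) : ℝ :=
  if h : (A.image lo ∪ B.image lo').Nonempty then (A.image lo ∪ B.image lo').max' h else 0

lemma loMax_ge {lo : Fin R → ℝ} {lo' : Fin R' → ℝ} {A : Finset (Fin R)} {B : Finset (Fin R')}
    {x : ℝ} (hx : x ∈ A.image lo ∪ B.image lo') : x ≤ loMax lo lo' A B := by
  rw [loMax, dif_pos ⟨x, hx⟩]
  exact Finset.le_max' _ _ hx

/-- The cost of the lines removed at a cell. -/
lemma loSum_split {lo : Fin R → ℝ} {lo' : Fin R' → ℝ} (A : Finset (Fin R)) (B : Finset (Fin R'))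
    (c : Option (Fin R) × Option (Fin R')) :
    loSum lo lo' A B - loSum lo lo' (A \ rowsAt A c) (B \ colsAt B c)
      ≤ (((rowsAt A c).card + (colsAt B c).card : ℕ) : ℝ) * loMax lo lo' A B := by
  have h1 : ∑ i ∈ rowsAt A c, lo i ≤ ((rowsAt A c).card : ℝ) * loMax lo lo' A B := by
    rw [← nsmul_eq_mul]
    refine Finset.sum_le_card_nsmul _ _ _ fun i hi => ?_
    exact loMax_ge (Finset.mem_union_left _ (Finset.mem_image_of_mem _ (Finset.mem_filter.1 hi).1))
  have h2 : ∑ j ∈ colsAt B c, lo' j ≤ ((colsAt B c).card : ℝ) * loMax lo lo' A B := by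
    rw [← nsmul_eq_mul]
    refine Finset.sum_le_card_nsmul _ _ _ fun j hj => ?_
    exact loMax_ge (Finset.mem_union_right _ (Finset.mem_image_of_mem _ (Finset.mem_filter.1 hj).1))
  have h3 : ∑ i ∈ A \ rowsAt A c, lo i + ∑ i ∈ rowsAt A c, lo i = ∑ i ∈ A, lo i :=
    Finset.sum_sdiff (Finset.filter_subset _ _)
  have h4 : ∑ j ∈ B \ colsAt B c, lo' j + ∑ j ∈ colsAt B c, lo' j = ∑ j ∈ B, lo' j :=
    Finset.sum_sdiff (Finset.filter_subset _ _)
  simp only [loSum]
  push_cast
  rw [add_mul]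
  linarith

/-- Peeled classes: a set of matrices grouped by the cell and the remainder. -/
lemma peel_group {u Y : ℝ} {a : Fin R → ℕ} {b : Fin R' → ℕ} {lo : Fin R → ℝ} {lo' : Fin R' → ℝ}
    {A : Finset (Fin R)} {B : Finset (Fin R')} (hcap : ∀ c, cellCap Y a b c ≤ u + 2)
    (hne : A.Nonempty ∨ B.Nonempty) (S : Finset (Option (Fin R) × Option (Fin R') → ℕ))
    (hS : ∀ d ∈ S, PeelCond u Y a b lo lo' A B d) :
    ∃ (T : (Option (Fin R) × Option (Fin R')) →
        Finset (Option (Fin R) × Option (Fin R') → ℕ)),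
      (∀ c, ∀ d' ∈ T c, PeelCond u Y a b lo lo' (A \ rowsAt A c) (B \ colsAt B c) d') ∧
      (∀ c, (T c).Nonempty → 1 ≤ (rowsAt A c).card + (colsAt B c).card) ∧
      (∀ c, ∀ d' ∈ T c, (formsAt A B c d').card = (rowsAt A c).card + (colsAt B c).card ∧
        ∀ F ∈ formsAt A B c d', 1 ≤ F ∧ log (F : ℝ) ≤ exp (u + 3)) ∧
      ∀ Φ : (Option (Fin R) × Option (Fin R') → ℕ) → ℝ,
        ∀ Ψ : (Option (Fin R) × Option (Fin R')) → (Option (Fin R) × Option (Fin R') → ℕ) →
          ℕ → ℝ,
        (∀ c d' t, 0 ≤ Ψ c d' t) →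
        (∀ d ∈ S, ∀ c t x, d c = t * x → t.Prime → x ≠ 0 →
          Φ d ≤ Ψ c (Function.update d c x) t) →
        ∑ d ∈ S, Φ d ≤ ∑ c, ∑ d' ∈ T c,
          ∑ t ∈ formPrimes u (loMax lo lo' A B) (formsAt A B c d'), Ψ c d' t := by
  choose! c t x h using fun d (hd : d ∈ S) => peel_data hcap (hS d hd) hne
  refine ⟨fun e => (S.filter fun d => c d = e).image fun d => Function.update d (c d) (x d),
    ?_, ?_, ?_, ?_⟩
  · intro e d' hd'
    obtain ⟨d, hd, rfl⟩ := Finset.mem_image.1 hd'
    obtain ⟨hdS, rfl⟩ := Finset.mem_filter.1 hd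
    exact (h d hdS).2.2.2.1
  · rintro e ⟨d', hd'⟩
    obtain ⟨d, hd, rfl⟩ := Finset.mem_image.1 hd'
    obtain ⟨hdS, rfl⟩ := Finset.mem_filter.1 hd
    exact (h d hdS).2.2.2.2.2.2.1
  · intro e d' hd'
    obtain ⟨d, hd, rfl⟩ := Finset.mem_image.1 hd'
    obtain ⟨hdS, rfl⟩ := Finset.mem_filter.1 hd
    exact ⟨(h d hdS).2.2.2.2.2.2.2.1, (h d hdS).2.2.2.2.2.2.2.2.1⟩
  intro Φ Ψ hΨ hΦ
  rw [← Finset.sum_fiberwise S c Φ]
  refine Finset.sum_le_sum fun e _ => ?_
  set key : (Option (Fin R) × Option (Fin R') → ℕ) →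
      (Option (Fin R) × Option (Fin R') → ℕ) × ℕ := fun d => (Function.update d (c d) (x d), t d)
  set Se := S.filter fun d => c d = e with hSe
  calc ∑ d ∈ Se, Φ d ≤ ∑ d ∈ Se, Ψ e (key d).1 (key d).2 := by
        refine Finset.sum_le_sum fun d hd => ?_
        obtain ⟨hdS, hce⟩ := Finset.mem_filter.1 hd
        obtain ⟨h1, h2, h3, -⟩ := h d hdS
        subst hce
        exact hΦ d hdS (c d) (t d) (x d) h3 h1 h2
    _ = ∑ y ∈ Se.image key, Ψ e y.1 y.2 := by
        rw [Finset.sum_image]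
        intro d1 hd1 d2 hd2 hk
        obtain ⟨hS1, hc1⟩ := Finset.mem_filter.1 hd1
        obtain ⟨hS2, hc2⟩ := Finset.mem_filter.1 hd2
        obtain ⟨k1, k2⟩ := Prod.mk.inj hk
        funext z
        by_cases hz : z = e
        · subst hz
          have e1 := congrFun k1 z
          rw [hc1, hc2, Function.update_self, Function.update_self] at e1
          have a1 := (h d1 hS1).2.2.1
          have a2 := (h d2 hS2).2.2.1
          rw [hc1] at a1
          rw [hc2] at a2
          rw [a1, a2, k2, e1]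
        · have e1 := congrFun k1 z
          rwa [hc1, hc2, Function.update_of_ne hz, Function.update_of_ne hz] at e1
    _ ≤ ∑ y ∈ (Se.image fun d => Function.update d (c d) (x d)).sigma
          (fun d' => formPrimes u (loMax lo lo' A B) (formsAt A B e d')), Ψ e y.1 y.2 := by
        refine le_trans (le_of_eq ?_) (Finset.sum_le_sum_of_subset_of_nonneg
          (s := (Se.image key).image fun y => (⟨y.1, y.2⟩ :
            Σ _ : (Option (Fin R) × Option (Fin R') → ℕ), ℕ)) ?_ fun y _ _ => hΨ _ _ _)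
        · refine Eq.symm (Finset.sum_image ?_)
          intro y _ z _ hyz
          simp only [Sigma.mk.injEq, heq_eq_eq] at hyz
          exact Prod.ext hyz.1 hyz.2
        · intro y hy
          obtain ⟨z, hz, rfl⟩ := Finset.mem_image.1 hy
          obtain ⟨d, hd, rfl⟩ := Finset.mem_image.1 hz
          obtain ⟨hdS, hce⟩ := Finset.mem_filter.1 hd
          obtain ⟨h1, h2, h3, h4, h5, h6, h7, h8, h9, h10, h11⟩ := h d hdS
          refine Finset.mem_sigma.2 ⟨Finset.mem_image_of_mem _ hd, ?_⟩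
          subst hce
          refine Finset.mem_filter.2 ⟨mem_primesTo_iff.2 ⟨h1, h10⟩, ?_, h11⟩
          rw [loMax]
          split
          · refine Finset.max'_le _ _ _ fun y hy => ?_
            rcases Finset.mem_union.1 hy with hy | hy
            · obtain ⟨i, hi, rfl⟩ := Finset.mem_image.1 hy; exact h5 i hi
            · obtain ⟨j, hj, rfl⟩ := Finset.mem_image.1 hy; exact h6 j hj
          · rename_i hempty
            exfalso
            rcases hne with ⟨i, hi⟩ | ⟨j, hj⟩
            · exact hempty ⟨_, Finset.mem_union_left _ (Finset.mem_image_of_mem lo hi)⟩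
            · exact hempty ⟨_, Finset.mem_union_right _ (Finset.mem_image_of_mem lo' hj)⟩
    _ = _ := by rw [Finset.sum_sigma]

/-- Peeling bound for the weights. -/
theorem peel_sum : ∃ C : ℕ, ∀ (R R' : ℕ) (u Y : ℝ) (a : Fin R → ℕ) (b : Fin R' → ℕ)
    (lo : Fin R → ℝ) (lo' : Fin R' → ℝ), 0 ≤ u → 1 ≤ Y → (∀ c, cellCap Y a b c ≤ u + 2) →
    ∀ A : Finset (Fin R), ∀ B : Finset (Fin R'),
    ∀ S : Finset (Option (Fin R) × Option (Fin R') → ℕ),
    (∀ d ∈ S, PeelCond u Y a b lo lo' A B d) →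
      ∑ d ∈ S, cellsW Y b d ≤
        (((R : ℝ) + R' + 2) ^ 2 * C * (u + 4) ^ C) ^ (A.card + B.card) *
          exp (-loSum lo lo' A B + (∑ i, (a i : ℝ)) + C * ((R : ℝ) + R' + 2) ^ 2 * (Y + 1)) := by
  obtain ⟨C1, h1⟩ := tsum_forms
  obtain ⟨C2, hC2, h2⟩ := cells_euler
  refine ⟨max (max C1 ⌈C2⌉₊) 1, fun R R' u Y a b lo lo' hu hY hcap => ?_⟩
  set C := max (max C1 ⌈C2⌉₊) 1 with hC
  set P : ℝ := ((R : ℝ) + R' + 2) ^ 2 * C * (u + 4) ^ C with hP
  have hC1' : (C1 : ℝ) ≤ C := by exact_mod_cast (le_max_left _ _).trans (le_max_left _ _)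
  have hC2' : C2 ≤ (C : ℝ) :=
    (Nat.le_ceil C2).trans (by exact_mod_cast (le_max_right _ _).trans (le_max_left _ _))
  have hCone : (1 : ℝ) ≤ C := by exact_mod_cast le_max_right _ _
  have hcard : (Fintype.card (Option (Fin R) × Option (Fin R')) : ℝ) ≤ ((R : ℝ) + R' + 2) ^ 2 := by
    simp only [Fintype.card_prod, Fintype.card_option, Fintype.card_fin]
    push_cast; nlinarith [Nat.cast_nonneg (α := ℝ) R, Nat.cast_nonneg (α := ℝ) R']
  have hP1 : 1 ≤ P := by
    have h4 : (1 : ℝ) ≤ (u + 4) ^ C := one_le_pow₀ (by linarith)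
    have h5 : (1 : ℝ) ≤ ((R : ℝ) + R' + 2) ^ 2 := one_le_pow₀ (by
      linarith [Nat.cast_nonneg (α := ℝ) R, Nat.cast_nonneg (α := ℝ) R'])
    exact one_le_mul_of_one_le_of_one_le (one_le_mul_of_one_le_of_one_le h5 hCone) h4
  suffices h : ∀ n : ℕ, ∀ A : Finset (Fin R), ∀ B : Finset (Fin R'), A.card + B.card = n →
      ∀ S : Finset (Option (Fin R) × Option (Fin R') → ℕ),
      (∀ d ∈ S, PeelCond u Y a b lo lo' A B d) →
      ∑ d ∈ S, cellsW Y b d ≤ P ^ n *
          exp (-loSum lo lo' A B + (∑ i, (a i : ℝ)) + C * ((R : ℝ) + R' + 2) ^ 2 * (Y + 1)) from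
    fun A B S hS => h _ A B rfl S hS
  intro n
  induction n using Nat.strong_induction_on with
  | _ n ih =>
    intro A B hn S hS
    rcases Nat.eq_zero_or_pos n with hn0 | hn0
    · subst hn0
      have hA : A = ∅ := Finset.card_eq_zero.1 (by omega)
      have hB : B = ∅ := Finset.card_eq_zero.1 (by omega)
      subst hA hB
      refine (h2 R R' Y hY a b S fun d hd => (hS d hd).1).trans ?_
      have h3 := mul_le_mul_of_nonneg_right hC2'
        (show (0:ℝ) ≤ ((R : ℝ) + R' + 2) ^ 2 * (Y + 1) by positivity)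
      simp only [pow_zero, one_mul, loSum, Finset.sum_empty, add_zero, neg_zero, zero_add]
      exact exp_le_exp.2 (by nlinarith)
    have hne : A.Nonempty ∨ B.Nonempty := by
      by_contra hh
      rw [not_or, Finset.not_nonempty_iff_eq_empty, Finset.not_nonempty_iff_eq_empty] at hh
      obtain ⟨rfl, rfl⟩ := hh
      simp at hn; omega
    obtain ⟨T, hT1, hT2, hT3, hT4⟩ := peel_group hcap hne S hS
    refine (hT4 (cellsW Y b) (fun _ d' t => (1 / (t : ℝ)) * cellsW Y b d')
      (fun _ d' t => mul_nonneg (by positivity) (cellsW_nonneg Y b d'))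
      (fun d _ c t x hx ht hx0 => cellsW_update Y b hx ht hx0)).trans ?_
    set E := exp (-loSum lo lo' A B + (∑ i, (a i : ℝ)) + C * ((R : ℝ) + R' + 2) ^ 2 * (Y + 1))
    have hterm : ∀ c, ∑ d' ∈ T c, ∑ t ∈ formPrimes u (loMax lo lo' A B) (formsAt A B c d'),
        (1 / (t : ℝ)) * cellsW Y b d' ≤ (C : ℝ) * (u + 4) ^ C * P ^ (n - 1) * E := by
      intro c
      rcases (T c).eq_empty_or_nonempty with he | he
      · rw [he, Finset.sum_empty]; positivity
      set f := (rowsAt A c).card + (colsAt B c).card with hf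
      set n' := (A \ rowsAt A c).card + (B \ colsAt B c).card with hn'
      have hle : n' + f = n := by
        rw [hn', hf, Finset.card_sdiff_of_subset (show rowsAt A c ⊆ A from Finset.filter_subset _ _),
          Finset.card_sdiff_of_subset (show colsAt B c ⊆ B from Finset.filter_subset _ _)]
        have := Finset.card_filter_le A (fun i => c.1 = some i)
        have := Finset.card_filter_le B (fun j => c.2 = some j)
        simp only [rowsAt, colsAt] at *
        omega
      have hf1 := hT2 c he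
      have hrec := ih n' (by omega) _ _ rfl (T c) (hT1 c)
      calc ∑ d' ∈ T c, ∑ t ∈ formPrimes u (loMax lo lo' A B) (formsAt A B c d'),
            (1 / (t : ℝ)) * cellsW Y b d'
          ≤ ∑ d' ∈ T c, ((C : ℝ) * (u + 4) ^ C * exp (-(f : ℝ) * loMax lo lo' A B))
              * cellsW Y b d' := by
            refine Finset.sum_le_sum fun d' hd' => ?_
            rw [← Finset.sum_mul]
            refine mul_le_mul_of_nonneg_right ?_ (cellsW_nonneg Y b d')
            obtain ⟨hcd, hF⟩ := hT3 c d' hd'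
            refine (h1 u _ hu _ ?_ hF).trans ?_
            · rw [hcd]
              have := rowsAt_card A c
              have := colsAt_card B c
              omega
            · rw [hcd, ← hf]
              refine mul_le_mul_of_nonneg_right (mul_le_mul hC1'
                (pow_le_pow_right₀ (by linarith) ((le_max_left _ _).trans (le_max_left _ _)))
                (by positivity) (by positivity)) (exp_nonneg _)
        _ ≤ ((C : ℝ) * (u + 4) ^ C * exp (-(f : ℝ) * loMax lo lo' A B)) * (P ^ n' *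
              exp (-loSum lo lo' (A \ rowsAt A c) (B \ colsAt B c) + (∑ i, (a i : ℝ))
                + C * ((R : ℝ) + R' + 2) ^ 2 * (Y + 1))) := by
            rw [← Finset.mul_sum]
            exact mul_le_mul_of_nonneg_left hrec (by positivity)
        _ ≤ ((C : ℝ) * (u + 4) ^ C) * P ^ (n - 1) * E := by
            have hs := loSum_split (lo := lo) (lo' := lo') A B c
            rw [← hf] at hs
            have he' : exp (-(f : ℝ) * loMax lo lo' A B) *
                exp (-loSum lo lo' (A \ rowsAt A c) (B \ colsAt B c) + (∑ i, (a i : ℝ))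
                  + C * ((R : ℝ) + R' + 2) ^ 2 * (Y + 1)) ≤ E := by
              rw [← exp_add]; exact exp_le_exp.2 (by linarith)
            have hp : P ^ n' ≤ P ^ (n - 1) := pow_le_pow_right₀ hP1 (by omega)
            calc _ = ((C : ℝ) * (u + 4) ^ C) * P ^ n' * (exp (-(f : ℝ) * loMax lo lo' A B) *
                exp (-loSum lo lo' (A \ rowsAt A c) (B \ colsAt B c) + (∑ i, (a i : ℝ))
                  + C * ((R : ℝ) + R' + 2) ^ 2 * (Y + 1))) := by ring
              _ ≤ _ := mul_le_mul (mul_le_mul_of_nonneg_left hp (by positivity)) he' (by positivity)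
                  (by positivity)
    calc _ ≤ ∑ _c : Option (Fin R) × Option (Fin R'),
          (C : ℝ) * (u + 4) ^ C * P ^ (n - 1) * E := Finset.sum_le_sum fun c _ => hterm c
      _ ≤ ((R : ℝ) + R' + 2) ^ 2 * ((C : ℝ) * (u + 4) ^ C * P ^ (n - 1) * E) := by
          rw [Finset.sum_const, nsmul_eq_mul, Finset.card_univ]
          exact mul_le_mul_of_nonneg_right hcard (by positivity)
      _ = P * P ^ (n - 1) * E := by rw [hP]; ring
      _ = _ := by rw [← pow_succ', Nat.sub_add_cancel hn0]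

/-- Peeling bound for counting: the first peeled prime is counted. -/
theorem peel_count : ∃ C : ℕ, ∀ (R R' : ℕ) (u Y : ℝ) (a : Fin R → ℕ) (b : Fin R' → ℕ)
    (lo : Fin R → ℝ) (lo' : Fin R' → ℝ), 0 ≤ u → 1 ≤ Y → (∀ c, cellCap Y a b c ≤ u + 2) →
    ∀ A : Finset (Fin R), ∀ B : Finset (Fin R'), ∀ i₀ ∈ A, ∀ X : ℝ, 0 ≤ X →
    ∀ S : Finset (Option (Fin R) × Option (Fin R') → ℕ),
    (∀ d ∈ S, PeelCond u Y a b lo lo' A B d ∧ ((∏ c, d c : ℕ) : ℝ) ≤ X) →
      ∑ d ∈ S, ∏ c, wt (colWt Y b) (d c) ≤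
        X * (((R : ℝ) + R' + 2) ^ 2 * C * (u + 4) ^ C) ^ (A.card + B.card) *
          exp (-lo i₀ - loSum lo lo' A B + (∑ i, (a i : ℝ))
            + C * ((R : ℝ) + R' + 2) ^ 2 * (Y + 1)) := by
  obtain ⟨C1, h1⟩ := tcount_forms
  obtain ⟨C2, h2⟩ := peel_sum
  refine ⟨max (max C1 C2) 1, fun R R' u Y a b lo lo' hu hY hcap A B i₀ hi₀ X hX S hS => ?_⟩
  set C := max (max C1 C2) 1 with hC
  set P : ℝ := ((R : ℝ) + R' + 2) ^ 2 * C * (u + 4) ^ C with hP
  have hC1n : C1 ≤ C := (le_max_left _ _).trans (le_max_left _ _)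
  have hC2n : C2 ≤ C := (le_max_right _ _).trans (le_max_left _ _)
  have hC1' : (C1 : ℝ) ≤ C := by exact_mod_cast hC1n
  have hC2' : (C2 : ℝ) ≤ C := by exact_mod_cast hC2n
  have hCone : (1 : ℝ) ≤ C := by exact_mod_cast le_max_right _ _
  have hcard : (Fintype.card (Option (Fin R) × Option (Fin R')) : ℝ) ≤ ((R : ℝ) + R' + 2) ^ 2 := by
    simp only [Fintype.card_prod, Fintype.card_option, Fintype.card_fin]
    push_cast; nlinarith [Nat.cast_nonneg (α := ℝ) R, Nat.cast_nonneg (α := ℝ) R']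
  have hP1 : 1 ≤ P := by
    have h4 : (1 : ℝ) ≤ (u + 4) ^ C := one_le_pow₀ (by linarith)
    have h5 : (1 : ℝ) ≤ ((R : ℝ) + R' + 2) ^ 2 := one_le_pow₀ (by
      linarith [Nat.cast_nonneg (α := ℝ) R, Nat.cast_nonneg (α := ℝ) R'])
    exact one_le_mul_of_one_le_of_one_le (one_le_mul_of_one_le_of_one_le h5 hCone) h4
  have hne : A.Nonempty ∨ B.Nonempty := Or.inl ⟨i₀, hi₀⟩
  obtain ⟨T, hT1, hT2, hT3, hT4⟩ := peel_group hcap hne S fun d hd => (hS d hd).1
  have hwt0 : ∀ m : ℕ, 0 ≤ wt (colWt Y b) m := fun m => wt_nonneg fun q _ => (colWt_range Y b q).1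
  refine (hT4 (fun d => ∏ c, wt (colWt Y b) (d c))
    (fun _ d' t => if (t : ℝ) * ((∏ c, d' c : ℕ) : ℝ) ≤ X then ∏ c, wt (colWt Y b) (d' c) else 0)
    (fun _ d' t => by split; exacts [Finset.prod_nonneg fun c _ => hwt0 _, le_rfl]) ?_).trans ?_
  · intro d hd c t x hx ht hx0
    have hprod : ∏ e, d e = t * ∏ e, Function.update d c x e := prod_update_mul d c t x hx
    have h3 := (hS d hd).2
    rw [hprod, Nat.cast_mul] at h3
    have he : ∏ e ∈ Finset.univ.erase c, wt (colWt Y b) (Function.update d c x e)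
        = ∏ e ∈ Finset.univ.erase c, wt (colWt Y b) (d e) :=
      Finset.prod_congr rfl fun e he => by rw [Function.update_of_ne (Finset.ne_of_mem_erase he)]
    rw [if_pos h3, ← Finset.mul_prod_erase _ _ (Finset.mem_univ c),
      ← Finset.mul_prod_erase _ _ (Finset.mem_univ c), Function.update_self, he]
    refine mul_le_mul_of_nonneg_right ?_ (Finset.prod_nonneg fun e _ => hwt0 _)
    rw [hx, wt_mul _ ht.ne_zero hx0, wt_prime _ ht]
    exact mul_le_of_le_one_left (hwt0 _) (colWt_range Y b t).2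
  set E := exp (-lo i₀ - loSum lo lo' A B + (∑ i, (a i : ℝ))
    + C * ((R : ℝ) + R' + 2) ^ 2 * (Y + 1))
  have hterm : ∀ c, ∑ d' ∈ T c, ∑ t ∈ formPrimes u (loMax lo lo' A B) (formsAt A B c d'),
      (if (t : ℝ) * ((∏ e, d' e : ℕ) : ℝ) ≤ X then ∏ e, wt (colWt Y b) (d' e) else 0)
      ≤ (C : ℝ) * (u + 4) ^ C * P ^ (A.card + B.card - 1) * X * E := by
    intro c
    rcases (T c).eq_empty_or_nonempty with he | he
    · rw [he, Finset.sum_empty]; positivity
    set m := loMax lo lo' A B with hm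
    set f := (rowsAt A c).card + (colsAt B c).card with hf
    set n' := (A \ rowsAt A c).card + (B \ colsAt B c).card with hn'
    have hle : n' + f = A.card + B.card := by
      rw [hn', hf, Finset.card_sdiff_of_subset (show rowsAt A c ⊆ A from Finset.filter_subset _ _),
        Finset.card_sdiff_of_subset (show colsAt B c ⊆ B from Finset.filter_subset _ _)]
      have := Finset.card_filter_le A (fun i => c.1 = some i)
      have := Finset.card_filter_le B (fun j => c.2 = some j)
      simp only [rowsAt, colsAt] at *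
      omega
    have hf1 := hT2 c he
    calc ∑ d' ∈ T c, ∑ t ∈ formPrimes u m (formsAt A B c d'),
          (if (t : ℝ) * ((∏ e, d' e : ℕ) : ℝ) ≤ X then ∏ e, wt (colWt Y b) (d' e) else 0)
        ≤ ∑ d' ∈ T c, ((C : ℝ) * (u + 4) ^ C * X * exp (-((f : ℝ) + 1) * m)) * cellsW Y b d' := by
          refine Finset.sum_le_sum fun d' hd' => ?_
          obtain ⟨hcd, hF⟩ := hT3 c d' hd'
          have hpos : (0 : ℝ) < ((∏ e, d' e : ℕ) : ℝ) := by
            exact_mod_cast Finset.prod_pos fun e _ => Nat.pos_of_ne_zero ((hT1 c d' hd').1 e).1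
          have hW : cellsW Y b d'
              = (∏ e, wt (colWt Y b) (d' e)) / ((∏ e, d' e : ℕ) : ℝ) := by
            rw [cellsW, Finset.prod_div_distrib, Nat.cast_prod]
          rw [← Finset.sum_filter, Finset.sum_const, nsmul_eq_mul]
          have hcnt := h1 u m (X / ((∏ e, d' e : ℕ) : ℝ)) hu (div_nonneg hX hpos.le)
            (formsAt A B c d') (by
              rw [hcd]
              have := rowsAt_card A c
              have := colsAt_card B c
              omega) hF
          rw [hcd, ← hf] at hcnt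
          have hfil : (formPrimes u m (formsAt A B c d')).filter
              (fun t : ℕ => (t : ℝ) * ((∏ e, d' e : ℕ) : ℝ) ≤ X)
              = (formPrimes u m (formsAt A B c d')).filter
              (fun t : ℕ => (t : ℝ) ≤ X / ((∏ e, d' e : ℕ) : ℝ)) :=
            Finset.filter_congr fun t _ => (le_div_iff₀ hpos).symm
          rw [hfil]
          refine le_trans (mul_le_mul_of_nonneg_right hcnt
            (Finset.prod_nonneg fun e _ => hwt0 _)) ?_
          rw [hW]
          have hk : (C1 : ℝ) * (u + 4) ^ C1 ≤ (C : ℝ) * (u + 4) ^ C :=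
            mul_le_mul hC1' (pow_le_pow_right₀ (by linarith) hC1n) (by positivity) (by positivity)
          calc (C1 : ℝ) * (u + 4) ^ C1 * (X / ((∏ e, d' e : ℕ) : ℝ)) * exp (-((f : ℝ) + 1) * m)
              * ∏ e, wt (colWt Y b) (d' e)
              = (C1 : ℝ) * (u + 4) ^ C1 * (X * exp (-((f : ℝ) + 1) * m) *
                  ((∏ e, wt (colWt Y b) (d' e)) / ((∏ e, d' e : ℕ) : ℝ))) := by ring
            _ ≤ (C : ℝ) * (u + 4) ^ C * (X * exp (-((f : ℝ) + 1) * m) *
                  ((∏ e, wt (colWt Y b) (d' e)) / ((∏ e, d' e : ℕ) : ℝ))) :=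
                mul_le_mul_of_nonneg_right hk (mul_nonneg (mul_nonneg hX (exp_nonneg _))
                  (div_nonneg (Finset.prod_nonneg fun e _ => hwt0 _) hpos.le))
            _ = _ := by ring
      _ ≤ ((C : ℝ) * (u + 4) ^ C * X * exp (-((f : ℝ) + 1) * m)) * (P ^ n' *
            exp (-loSum lo lo' (A \ rowsAt A c) (B \ colsAt B c) + (∑ i, (a i : ℝ))
              + C * ((R : ℝ) + R' + 2) ^ 2 * (Y + 1))) := by
          rw [← Finset.mul_sum]
          refine mul_le_mul_of_nonneg_left ((h2 R R' u Y a b lo lo' hu hY hcap _ _ (T c)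
            (hT1 c)).trans ?_) (by positivity)
          rw [← hn', hP]
          gcongr <;> first | exact hC2n | linarith
      _ ≤ _ := by
          have hs := loSum_split (lo := lo) (lo' := lo') A B c
          rw [← hf, ← hm] at hs
          have hi : lo i₀ ≤ m :=
            loMax_ge (Finset.mem_union_left _ (Finset.mem_image_of_mem lo hi₀))
          have he' : exp (-((f : ℝ) + 1) * m) *
              exp (-loSum lo lo' (A \ rowsAt A c) (B \ colsAt B c) + (∑ i, (a i : ℝ))
                + C * ((R : ℝ) + R' + 2) ^ 2 * (Y + 1)) ≤ E := by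
            rw [← exp_add]; exact exp_le_exp.2 (by linarith)
          have hp : P ^ n' ≤ P ^ (A.card + B.card - 1) := pow_le_pow_right₀ hP1 (by omega)
          calc _ = ((C : ℝ) * (u + 4) ^ C) * P ^ n' * X * (exp (-((f : ℝ) + 1) * m) *
              exp (-loSum lo lo' (A \ rowsAt A c) (B \ colsAt B c) + (∑ i, (a i : ℝ))
                + C * ((R : ℝ) + R' + 2) ^ 2 * (Y + 1))) := by ring
            _ ≤ _ := mul_le_mul (mul_le_mul_of_nonneg_right
                (mul_le_mul_of_nonneg_left hp (by positivity)) hX) he' (by positivity)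
                (by positivity)
  calc _ ≤ ∑ _c : Option (Fin R) × Option (Fin R'),
        (C : ℝ) * (u + 4) ^ C * P ^ (A.card + B.card - 1) * X * E :=
        Finset.sum_le_sum fun c _ => hterm c
    _ ≤ ((R : ℝ) + R' + 2) ^ 2 * ((C : ℝ) * (u + 4) ^ C * P ^ (A.card + B.card - 1) * X * E) := by
        rw [Finset.sum_const, nsmul_eq_mul, Finset.card_univ]
        exact mul_le_mul_of_nonneg_right hcard (by positivity)
    _ = X * (P * P ^ (A.card + B.card - 1)) * E := by rw [hP]; ring
    _ = _ := by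
        rw [← pow_succ', Nat.sub_add_cancel]
        have : 0 < A.card := Finset.card_pos.2 ⟨i₀, hi₀⟩
        omega

end Vale.Agent.P031
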