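import Vale.Agent.P031.Brun

/-!
# Totient values: sums over a prime `t` with given prime forms `A t + 1`
-/

open Finset Real
open scoped Classical

noncomputable section

namespace Vale.Agent.P031

/-- Primes `t` of scale in `[lo, u + 2]` making all forms `A t + 1` prime. -/
def formPrimes (u lo : ℝ) (F : Finset ℕ) : Finset ℕ :=
  (primesTo (u + 2)).filter fun t => lo ≤ sc t ∧ ∀ A ∈ F, (A * t + 1).Prime

/-- The dyadic block `(2 ^ i, 2 ^ (i + 1)]` of `formPrimes`. -/
def formBlock (u lo : ℝ) (F : Finset ℕ) (i : ℕ) : Finset ℕ :=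
  (formPrimes u lo F).filter fun t => 4 < t ∧ Nat.log 2 (t - 1) = i

lemma mem_formBlock {u lo : ℝ} {F : Finset ℕ} {i t : ℕ} (h : t ∈ formBlock u lo F i) :
    t.Prime ∧ 2 ≤ i ∧ 2 ^ i < t ∧ t ≤ 2 * 2 ^ i ∧ exp lo ≤ log (t : ℝ) ∧
      log (t : ℝ) ≤ exp (u + 2) ∧ (∀ A ∈ F, (A * t + 1).Prime) := by
  simp only [formBlock, formPrimes, primesTo, Finset.mem_filter] at h
  obtain ⟨⟨⟨-, hp, hup⟩, hlo, hA⟩, h4, hi⟩ := h
  have ht : (2 : ℝ) ≤ t := by exact_mod_cast hp.two_le
  have h1 := Nat.pow_log_le_self 2 (x := t - 1) (by omega)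
  have h2 := Nat.lt_pow_succ_log_self (b := 2) (by norm_num) (t - 1)
  rw [hi] at h1 h2
  refine ⟨hp, hi ▸ Nat.le_log_of_pow_le (by norm_num) (by norm_num; omega), by omega, ?_, ?_, ?_, hA⟩
  · rw [pow_succ] at h2; omega
  · exact (le_log_iff_exp_le (log_pos (by linarith))).1 hlo
  · exact (log_le_iff_le_exp (log_pos (by linarith))).1 hup

/-- The sieve bound on one block. -/
lemma card_formBlock_le : ∃ K : ℝ, 0 < K ∧ ∀ u lo : ℝ, 0 ≤ u → ∀ F : Finset ℕ, F.card ≤ 2 →
    (∀ A ∈ F, 1 ≤ A ∧ log (A : ℝ) ≤ exp (u + 3)) → ∀ i : ℕ, (formBlock u lo F i).Nonempty →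
    exp lo ≤ 2 * log ((2 ^ i : ℕ) : ℝ) ∧ log ((2 ^ i : ℕ) : ℝ) ≤ exp (u + 2) ∧
    ((formBlock u lo F i).card : ℝ)
      ≤ K * (u + 4) ^ 6 * ((2 ^ i : ℕ) : ℝ) / log ((2 ^ i : ℕ) : ℝ) ^ (F.card + 1) := by
  obtain ⟨K, hK, hsieve⟩ := sieve_forms
  refine ⟨K * 2 ^ 6, by positivity, fun u lo hu F hF hA i hne => ?_⟩
  obtain ⟨t, ht⟩ := hne
  obtain ⟨hp, hi, ht1, ht2, hlo, hup, -⟩ := mem_formBlock ht
  set M := 2 ^ i with hM
  have hM4 : 4 ≤ M := hM ▸ (le_of_eq_of_le (by norm_num) (Nat.pow_le_pow_right two_pos hi))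
  have hMR : (4 : ℝ) ≤ M := by exact_mod_cast hM4
  have htR : (t : ℝ) ≤ 2 * M := by exact_mod_cast ht2
  have hMt : (M : ℝ) ≤ t := by exact_mod_cast ht1.le
  have hlM : log (M : ℝ) ≤ exp (u + 2) := (log_le_log (by linarith) hMt).trans hup
  refine ⟨hlo.trans ?_, hlM, ?_⟩
  · refine (log_le_log (by linarith) htR).trans ?_
    rw [log_mul (by norm_num) (by linarith)]
    linarith [log_le_log two_pos (show (2 : ℝ) ≤ M by linarith)]
  set S := max 1 (F.sup id) with hS
  have hlS : log (S : ℝ) ≤ exp (u + 3) := by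
    rcases F.eq_empty_or_nonempty with rfl | hFn
    · simp [hS, (exp_pos _).le]
    · obtain ⟨A, hAF, hAs⟩ := F.exists_mem_eq_sup hFn id
      rw [hS, hAs, id, max_eq_right (hA A hAF).1]
      exact (hA A hAF).2
  have hcard : ((formBlock u lo F i).card : ℝ) ≤ _ :=
    (Nat.cast_le.2 (Finset.card_le_card fun x hx => ?_)).trans
      (hsieve M S F (by omega) (le_max_left _ _) hF fun A hAF =>
        ⟨(hA A hAF).1, (Finset.le_sup (f := id) hAF).trans (le_max_right _ _)⟩)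
  · refine hcard.trans ?_
    have hloss : loss M S ≤ 2 * (u + 4) := by
      have h0 : 0 ≤ log (M : ℝ) + log (S : ℝ) := add_nonneg (log_natCast_nonneg M) (log_natCast_nonneg S)
      have h1 : log (M : ℝ) + log (S : ℝ) + 3 ≤ exp (u + 6) := by
        have a1 : exp (u + 2) ≤ exp (u + 3) := exp_le_exp.2 (by linarith)
        have a2 : 1 ≤ exp (u + 3) := one_le_exp (by linarith)
        have a3 : exp (u + 6) = exp (u + 3) * exp 3 := by rw [← exp_add]; ring_nf
        have a4 : 5 ≤ exp (3 : ℝ) := by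
          have := quadratic_le_exp_of_nonneg (show (0 : ℝ) ≤ 3 by norm_num); linarith
        nlinarith
      rw [loss]
      have := log_le_log (by linarith) h1
      rw [log_exp] at this
      linarith
    have hlpos : 0 < log (M : ℝ) := log_pos (by linarith)
    calc K * M * loss M S ^ 6 / log (M : ℝ) ^ (F.card + 1)
        ≤ K * M * (2 * (u + 4)) ^ 6 / log (M : ℝ) ^ (F.card + 1) := by
          gcongr
          linarith [one_le_loss M S]
      _ = _ := by ring
  · obtain ⟨hxp, -, hx1, hx2, -, -, hxA⟩ := mem_formBlock hx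
    exact Finset.mem_filter.2 ⟨Finset.mem_Ioc.2 ⟨hx1, hx2⟩, hxp, hxA⟩

/-- The small members of `formPrimes` force `lo` below one. -/
lemma small_formPrimes {u lo : ℝ} {F : Finset ℕ} :
    (((formPrimes u lo F).filter fun t => ¬ 4 < t).card ≤ 5) ∧
      ∀ t ∈ (formPrimes u lo F).filter (fun t => ¬ 4 < t), lo ≤ 1 ∧ (2 : ℝ) ≤ t := by
  constructor
  · refine le_trans (Finset.card_le_card (t := Finset.range 5) fun t ht => ?_) (by simp)
    rw [Finset.mem_filter] at ht
    rw [Finset.mem_range]; omega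
  intro t ht
  simp only [formPrimes, primesTo, Finset.mem_filter] at ht
  obtain ⟨⟨⟨-, hp, -⟩, hlo, -⟩, h4⟩ := ht
  have h2 : (2 : ℝ) ≤ t := by exact_mod_cast hp.two_le
  have ht4 : (t : ℝ) ≤ 4 := by exact_mod_cast not_lt.1 h4
  refine ⟨hlo.trans ?_, h2⟩
  rw [sc, log_le_iff_le_exp (log_pos (by linarith))]
  have h5 := log_le_log (by linarith) ht4
  rw [show (4 : ℝ) = 2 * 2 by norm_num, log_mul (by norm_num) (by norm_num)] at h5
  have := log_two_lt_d9
  have := exp_one_gt_d9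
  norm_num at *
  linarith

lemma formPrimes_split (u lo : ℝ) (F : Finset ℕ) (P : ℕ → Prop) :
    (formPrimes u lo F).filter P ⊆ (formPrimes u lo F).filter (fun t => ¬ 4 < t) ∪
      ((Finset.range (⌈2 * exp (u + 2)⌉₊ + 1)).filter fun i => ∃ t ∈ formBlock u lo F i, P t).biUnion
        (fun i => (formBlock u lo F i).filter P) := by
  intro t ht
  obtain ⟨ht, hP⟩ := Finset.mem_filter.1 ht
  by_cases h4 : 4 < t
  · have hb : t ∈ formBlock u lo F (Nat.log 2 (t - 1)) := Finset.mem_filter.2 ⟨ht, h4, rfl⟩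
    refine Finset.mem_union_right _ (Finset.mem_biUnion.2 ⟨_, Finset.mem_filter.2 ⟨?_, t, hb, hP⟩,
      Finset.mem_filter.2 ⟨hb, hP⟩⟩)
    obtain ⟨-, -, h1, -, -, hup, -⟩ := mem_formBlock hb
    rw [Finset.mem_range]
    refine Nat.lt_succ_of_le ?_
    have h2 := log_le_log (by positivity)
      (show ((2 ^ Nat.log 2 (t - 1) : ℕ) : ℝ) ≤ t by exact_mod_cast h1.le)
    rw [Nat.cast_pow, log_pow, Nat.cast_ofNat] at h2
    have h3 : (0.5 : ℝ) ≤ log 2 := by have := log_two_gt_d9; norm_num at *; linarith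
    have h4 : (Nat.log 2 (t - 1) : ℝ) ≤ 2 * exp (u + 2) := by
      nlinarith [Nat.cast_nonneg (α := ℝ) (Nat.log 2 (t - 1))]
    exact Nat.cast_le.1 (h4.trans (Nat.le_ceil _))
  · exact Finset.mem_union_left _ (Finset.mem_filter.2 ⟨ht, h4⟩)

lemma sum_union_le_add (A B : Finset ℕ) :
    ∑ t ∈ A ∪ B, (1 : ℝ) / t ≤ ∑ t ∈ A, (1 : ℝ) / t + ∑ t ∈ B, (1 : ℝ) / t :=
  (le_add_of_nonneg_right (Finset.sum_nonneg fun t _ => by positivity)).trans
    Finset.sum_union_inter.le

/-- The blocks above `4`. -/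
lemma tsum_blocks : ∃ K : ℝ, 0 < K ∧ ∀ u lo : ℝ, 0 ≤ u → ∀ F : Finset ℕ, F.card ≤ 2 →
    (∀ A ∈ F, 1 ≤ A ∧ log (A : ℝ) ≤ exp (u + 3)) → ∀ P : ℕ → Prop,
    ∑ t ∈ ((Finset.range (⌈2 * exp (u + 2)⌉₊ + 1)).filter
        fun i => ∃ t ∈ formBlock u lo F i, P t).biUnion
      (fun i => (formBlock u lo F i).filter fun t => P t), (1 : ℝ) / t
      ≤ 32 * K * (u + 4) ^ 7 * exp (-(F.card : ℝ) * lo) := by
  obtain ⟨K, hK, hblock⟩ := card_formBlock_le
  refine ⟨K, hK, fun u lo hu F hF hA P => ?_⟩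
  set k := F.card with hk
  set N := ⌈2 * exp (u + 2)⌉₊ + 1 with hN
  set E := exp (-(k : ℝ) * lo) with hE
  rw [Finset.sum_biUnion (fun i _ j _ hij => Finset.disjoint_left.2 fun t h h' => hij
    ((Finset.mem_filter.1 (Finset.mem_filter.1 h).1).2.2.symm.trans
      (Finset.mem_filter.1 (Finset.mem_filter.1 h').1).2.2))]
  have hH : (harmonic N : ℝ) ≤ 2 * (u + 4) := by
    refine (harmonic_le_one_add_log N).trans ?_
    have hNe : (N : ℝ) ≤ exp (u + 5) := by
      rw [hN]; push_cast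
      have h := Nat.ceil_lt_add_one (show 0 ≤ 2 * exp (u + 2) by positivity)
      have e1 : exp (u + 5) = exp (u + 2) * exp 3 := by rw [← exp_add]; ring_nf
      have e2 : 4 ≤ exp (3 : ℝ) := by linarith [add_one_le_exp (3 : ℝ)]
      have e3 : 1 ≤ exp (u + 2) := one_le_exp (by linarith)
      nlinarith
    have := log_le_log (show (0 : ℝ) < N by positivity) hNe
    rw [log_exp] at this
    linarith
  calc ∑ i ∈ (Finset.range N).filter fun i => ∃ t ∈ formBlock u lo F i, P t,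
        ∑ t ∈ (formBlock u lo F i).filter (fun t => P t), (1 : ℝ) / t
      ≤ ∑ i ∈ (Finset.range N).filter fun i => ∃ t ∈ formBlock u lo F i, P t,
          16 * K * (u + 4) ^ 6 * E * (((i : ℝ) + 1)⁻¹) := by
        refine Finset.sum_le_sum fun i hi => ?_
        obtain ⟨t, ht, -⟩ := (Finset.mem_filter.1 hi).2
        obtain ⟨h1, -, h3⟩ := hblock u lo hu F hF hA i ⟨t, ht⟩
        have hi2 := (mem_formBlock ht).2.1
        set lM := log ((2 ^ i : ℕ) : ℝ) with hlM
        have hlMi : ((i : ℝ) + 1) / 4 ≤ lM := by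
          rw [hlM, Nat.cast_pow, log_pow, Nat.cast_ofNat]
          have h3 : (0.5 : ℝ) ≤ log 2 := by have := log_two_gt_d9; norm_num at *; linarith
          have : (2 : ℝ) ≤ i := by exact_mod_cast hi2
          nlinarith
        have hlM0 : 0 < lM := lt_of_lt_of_le (by positivity) hlMi
        refine (Finset.sum_le_sum_of_subset_of_nonneg (Finset.filter_subset _ _)
          fun t _ _ => by positivity).trans ?_
        calc ∑ t ∈ formBlock u lo F i, (1 : ℝ) / t
            ≤ (formBlock u lo F i).card * (1 / ((2 ^ i : ℕ) : ℝ)) := by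
              rw [← nsmul_eq_mul]
              refine Finset.sum_le_card_nsmul _ _ _ fun x hx => ?_
              exact one_div_le_one_div_of_le (by positivity)
                (by exact_mod_cast (mem_formBlock hx).2.2.1.le)
          _ ≤ K * (u + 4) ^ 6 * ((2 ^ i : ℕ) : ℝ) / lM ^ (k + 1) * (1 / ((2 ^ i : ℕ) : ℝ)) :=
              mul_le_mul_of_nonneg_right h3 (by positivity)
          _ = K * (u + 4) ^ 6 * ((lM⁻¹) ^ k * lM⁻¹) := by
              rw [← pow_succ, inv_pow]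
              have : ((2 ^ i : ℕ) : ℝ) ≠ 0 := by positivity
              field_simp
          _ ≤ K * (u + 4) ^ 6 * ((4 * E) * (4 * ((i : ℝ) + 1)⁻¹)) := by
              refine mul_le_mul_of_nonneg_left (mul_le_mul ?_ ?_ (by positivity) (by positivity))
                (by positivity)
              · have h5 : lM⁻¹ ≤ 2 * exp (-lo) := by
                  rw [exp_neg, ← div_eq_mul_inv, le_div_iff₀ (exp_pos _), inv_mul_le_iff₀ hlM0]
                  linarith
                refine (pow_le_pow_left₀ (by positivity) h5 k).trans ?_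
                rw [mul_pow, ← exp_nat_mul, hE, neg_mul, mul_neg]
                refine mul_le_mul_of_nonneg_right ?_ (exp_nonneg _)
                exact (pow_le_pow_right₀ one_le_two hF).trans (by norm_num)
              · rw [← div_eq_mul_inv, le_div_iff₀ (by positivity), inv_mul_le_iff₀ hlM0]
                linarith
          _ = _ := by ring
    _ ≤ ∑ i ∈ Finset.range N, 16 * K * (u + 4) ^ 6 * E * (((i : ℝ) + 1)⁻¹) :=
        Finset.sum_le_sum_of_subset_of_nonneg (Finset.filter_subset _ _)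
          fun i _ _ => by positivity
    _ = 16 * K * (u + 4) ^ 6 * E * harmonic N := by
        rw [← Finset.mul_sum, harmonic, Rat.cast_sum]; push_cast; rfl
    _ ≤ 16 * K * (u + 4) ^ 6 * E * (2 * (u + 4)) := mul_le_mul_of_nonneg_left hH (by positivity)
    _ = _ := by ring

theorem tsum_forms : ∃ C : ℕ, ∀ u lo : ℝ, 0 ≤ u → ∀ F : Finset ℕ, F.card ≤ 2 →
    (∀ A ∈ F, 1 ≤ A ∧ log (A : ℝ) ≤ exp (u + 3)) →
    ∑ t ∈ formPrimes u lo F, (1 : ℝ) / t
      ≤ C * (u + 4) ^ C * exp (-(F.card : ℝ) * lo) := by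
  obtain ⟨K, hK, htb⟩ := tsum_blocks
  refine ⟨⌈5 * exp 2 + 32 * K⌉₊ + 7, fun u lo hu F hF hA => ?_⟩
  set k := F.card with hk
  set N := ⌈2 * exp (u + 2)⌉₊ + 1 with hN
  set E := exp (-(k : ℝ) * lo) with hE
  have hu4 : 1 ≤ u + 4 := by linarith
  have hk2 : (k : ℝ) ≤ 2 := by exact_mod_cast hF
  have hsplit : formPrimes u lo F ⊆ _ := fun t ht =>
    formPrimes_split u lo F (fun _ => True) (by simp [ht])
  refine (Finset.sum_le_sum_of_subset_of_nonneg hsplit fun t _ _ => by positivity).trans ?_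
  refine (sum_union_le_add _ _).trans ?_
  obtain ⟨hcard, hsmall⟩ := small_formPrimes (u := u) (lo := lo) (F := F)
  have h1 : ∑ t ∈ (formPrimes u lo F).filter (fun t => ¬ 4 < t), (1 : ℝ) / t ≤ 5 * (exp 2 * E) := by
    refine le_trans (Finset.sum_le_card_nsmul _ _ (exp 2 * E) fun t ht => ?_) ?_
    · obtain ⟨hlo, ht2⟩ := hsmall t ht
      refine le_trans ((div_le_one (by linarith)).2 (by linarith)) ?_
      rw [hE, ← exp_add]
      refine one_le_exp ?_
      nlinarith [Nat.cast_nonneg (α := ℝ) k]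
    · rw [nsmul_eq_mul]
      exact mul_le_mul_of_nonneg_right (by exact_mod_cast hcard) (by positivity)
  have h2 := htb u lo hu F hF hA (fun _ => True)
  refine (add_le_add h1 h2).trans ?_
  set C := ⌈5 * exp 2 + 32 * K⌉₊ + 7 with hC
  have hC1 : 5 * exp 2 + 32 * K ≤ (C : ℝ) := by
    rw [hC]; push_cast; linarith [Nat.le_ceil (5 * exp 2 + 32 * K)]
  have hpow : (u + 4) ^ 7 ≤ (u + 4) ^ C := pow_le_pow_right₀ hu4 (by omega)
  have h70 : 1 ≤ (u + 4) ^ 7 := one_le_pow₀ hu4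
  calc 5 * (exp 2 * E) + 32 * K * (u + 4) ^ 7 * E
      ≤ (5 * exp 2 + 32 * K) * (u + 4) ^ 7 * E := by
        linarith [mul_le_mul_of_nonneg_left h70 (show 0 ≤ 5 * exp 2 * E by positivity)]
    _ ≤ _ := mul_le_mul_of_nonneg_right (mul_le_mul hC1 hpow (by positivity) (Nat.cast_nonneg _))
        (exp_nonneg _)

lemma two_pow_sum_le_two_mul {Y : ℝ} {F : Finset ℕ} (h : ∀ i ∈ F, ((2 ^ i : ℕ) : ℝ) ≤ Y)
    (hY : 0 ≤ Y) : ∑ i ∈ F, ((2 ^ i : ℕ) : ℝ) ≤ 2 * Y := by
  rcases F.eq_empty_or_nonempty with rfl | hne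
  · simp; linarith
  have h1 : ∑ i ∈ F, 2 ^ i ≤ 2 * 2 ^ F.max' hne := by
    refine (Finset.sum_le_sum_of_subset (t := Finset.range (F.max' hne + 1)) fun i hi =>
      Finset.mem_range.2 (Nat.lt_succ_of_le (F.le_max' i hi))).trans ?_
    have := Nat.geomSum_eq (le_refl 2) (F.max' hne + 1)
    rw [this, pow_succ]
    omega
  refine le_trans ?_ (mul_le_mul_of_nonneg_left (h _ (F.max'_mem hne)) zero_le_two)
  exact_mod_cast h1

theorem tcount_forms : ∃ C : ℕ, ∀ u lo T : ℝ, 0 ≤ u → 0 ≤ T → ∀ F : Finset ℕ, F.card ≤ 2 →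
    (∀ A ∈ F, 1 ≤ A ∧ log (A : ℝ) ≤ exp (u + 3)) →
    (((formPrimes u lo F).filter fun t : ℕ => (t : ℝ) ≤ T).card : ℝ)
      ≤ C * (u + 4) ^ C * T * exp (-((F.card : ℝ) + 1) * lo) := by
  obtain ⟨K, hK, hblock⟩ := card_formBlock_le
  refine ⟨⌈5 * exp 3 + 16 * K⌉₊ + 6, fun u lo T hu hT F hF hA => ?_⟩
  set k := F.card with hk
  set E := exp (-((k : ℝ) + 1) * lo) with hE
  have hu4 : 1 ≤ u + 4 := by linarith
  have hk2 : (k : ℝ) ≤ 2 := by exact_mod_cast hF
  refine le_trans (Nat.cast_le.2 ((Finset.card_le_card fun t ht =>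
    Finset.mem_inter.2 ⟨formPrimes_split u lo F (fun t : ℕ => (t : ℝ) ≤ T) ht, ht⟩ :
    ((formPrimes u lo F).filter fun t : ℕ => (t : ℝ) ≤ T).card ≤ _).trans
      (le_of_eq (congrArg _ (Finset.union_inter_distrib_right _ _ _)) |>.trans
        (Finset.card_union_le _ _)))) ?_
  push_cast
  have h1 : ((((formPrimes u lo F).filter fun t => ¬ 4 < t) ∩
      (formPrimes u lo F).filter fun t : ℕ => (t : ℝ) ≤ T).card : ℝ) ≤ 5 * (exp 3 * T * E) := by
    obtain ⟨hcard, hsmall⟩ := small_formPrimes (u := u) (lo := lo) (F := F)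
    rcases Finset.eq_empty_or_nonempty (((formPrimes u lo F).filter fun t => ¬ 4 < t) ∩
      (formPrimes u lo F).filter fun t : ℕ => (t : ℝ) ≤ T) with h | ⟨t, ht⟩
    · rw [h]; simp; positivity
    rw [Finset.mem_inter] at ht
    obtain ⟨hlo, ht2⟩ := hsmall t ht.1
    have htT : (t : ℝ) ≤ T := (Finset.mem_filter.1 ht.2).2
    calc _ ≤ (5 : ℝ) * 1 := by
          rw [mul_one]
          exact_mod_cast (Finset.card_le_card Finset.inter_subset_left).trans hcard
      _ ≤ _ := by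
          refine mul_le_mul_of_nonneg_left ?_ (by norm_num)
          have : 1 ≤ exp 3 * E := by
            rw [hE, ← exp_add]
            exact one_le_exp (by nlinarith [Nat.cast_nonneg (α := ℝ) k])
          nlinarith
  set I := (Finset.range (⌈2 * exp (u + 2)⌉₊ + 1)).filter
    fun i => ∃ t ∈ formBlock u lo F i, (t : ℝ) ≤ T with hI
  have h2 : ((I.biUnion (fun i => (formBlock u lo F i).filter fun t : ℕ => (t : ℝ) ≤ T) ∩
      (formPrimes u lo F).filter fun t : ℕ => (t : ℝ) ≤ T).card : ℝ)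
      ≤ 16 * K * (u + 4) ^ 6 * T * E := by
    refine le_trans (Nat.cast_le.2 ((Finset.card_le_card Finset.inter_subset_left).trans
      Finset.card_biUnion_le)) ?_
    rw [Nat.cast_sum]
    calc ∑ i ∈ I, (((formBlock u lo F i).filter fun t : ℕ => (t : ℝ) ≤ T).card : ℝ)
        ≤ ∑ i ∈ I, 8 * K * (u + 4) ^ 6 * E * ((2 ^ i : ℕ) : ℝ) := by
          refine Finset.sum_le_sum fun i hi => ?_
          obtain ⟨t, ht, -⟩ := (Finset.mem_filter.1 hi).2
          obtain ⟨h1, -, h3⟩ := hblock u lo hu F hF hA i ⟨t, ht⟩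
          refine (Nat.cast_le.2 (Finset.card_filter_le _ _)).trans (h3.trans ?_)
          set lM := log ((2 ^ i : ℕ) : ℝ) with hlM
          have hlM0 : 0 < lM := by linarith [exp_pos lo]
          have h5 : lM⁻¹ ≤ 2 * exp (-lo) := by
            rw [exp_neg, ← div_eq_mul_inv, le_div_iff₀ (exp_pos _), inv_mul_le_iff₀ hlM0]
            linarith
          have h6 : (lM⁻¹) ^ (k + 1) ≤ 8 * E := by
            refine (pow_le_pow_left₀ (by positivity) h5 (k + 1)).trans ?_
            rw [mul_pow, ← exp_nat_mul, hE, neg_mul, mul_neg]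
            push_cast
            refine mul_le_mul_of_nonneg_right ?_ (exp_nonneg _)
            exact (pow_le_pow_right₀ one_le_two (Nat.succ_le_succ hF)).trans (by norm_num)
          rw [div_eq_mul_inv, ← inv_pow]
          calc K * (u + 4) ^ 6 * ((2 ^ i : ℕ) : ℝ) * (lM⁻¹) ^ (k + 1)
              ≤ K * (u + 4) ^ 6 * ((2 ^ i : ℕ) : ℝ) * (8 * E) :=
                mul_le_mul_of_nonneg_left h6 (by positivity)
            _ = _ := by ring
      _ = 8 * K * (u + 4) ^ 6 * E * ∑ i ∈ I, ((2 ^ i : ℕ) : ℝ) := by rw [Finset.mul_sum]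
      _ ≤ 8 * K * (u + 4) ^ 6 * E * (2 * T) := by
          refine mul_le_mul_of_nonneg_left (two_pow_sum_le_two_mul (fun i hi => ?_) hT)
            (by positivity)
          obtain ⟨t, ht, htT⟩ := (Finset.mem_filter.1 hi).2
          exact le_trans (by exact_mod_cast (mem_formBlock ht).2.2.1.le) htT
      _ = _ := by ring
  refine (add_le_add h1 h2).trans ?_
  set C := ⌈5 * exp 3 + 16 * K⌉₊ + 6 with hC
  have hC1 : 5 * exp 3 + 16 * K ≤ (C : ℝ) := by
    rw [hC]; push_cast; linarith [Nat.le_ceil (5 * exp 3 + 16 * K)]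
  have hpow : (u + 4) ^ 6 ≤ (u + 4) ^ C := pow_le_pow_right₀ hu4 (by omega)
  have h60 : 1 ≤ (u + 4) ^ 6 := one_le_pow₀ hu4
  calc 5 * (exp 3 * T * E) + 16 * K * (u + 4) ^ 6 * T * E
      ≤ (5 * exp 3 + 16 * K) * (u + 4) ^ 6 * T * E := by
        linarith [mul_le_mul_of_nonneg_left h60 (show 0 ≤ 5 * exp 3 * T * E by positivity)]
    _ ≤ (C : ℝ) * (u + 4) ^ C * T * E := mul_le_mul_of_nonneg_right (mul_le_mul_of_nonneg_right
        (mul_le_mul hC1 hpow (by positivity) (Nat.cast_nonneg _)) hT) (exp_nonneg _)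
    _ = _ := by rw [hC]; push_cast; ring

end Vale.Agent.P031
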